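import Mathlib

/-!
The straightening of a field with a repelling line in a half plane.
-/

open scoped ContDiff
open Set Filter Topology Function

noncomputable section

namespace Vale.Agent.P354YT

/-- A left inverse of a map with invertible derivative is smooth. -/
theorem inv_sm {E : Type} [NormedAddCommGroup E] [NormedSpace ℝ E] [FiniteDimensional ℝ E]
    {f g : E → E} {U : Set E} {x : E} (hU : U ∈ 𝓝 x) (hf : ContDiffAt ℝ ∞ f x)
    (hi : ∀ v, fderiv ℝ f x v = 0 → v = 0) (hg : ∀ z ∈ U, g (f z) = z) :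
    ContDiffAt ℝ ∞ g (f x) := by
  have := FiniteDimensional.complete ℝ E
  have i : Injective (fderiv ℝ f x : E →ₗ[ℝ] E) := (injective_iff_map_eq_zero _).2 hi
  let e : E ≃L[ℝ] E := (LinearEquiv.ofInjectiveEndo _ i).toContinuousLinearEquiv
  have he : HasFDerivAt f (e : E →L[ℝ] E) x := (hf.differentiableAt (by simp)).hasFDerivAt
  have n : (∞ : WithTop ℕ∞) ≠ 0 := by simp
  have hs := hf.hasStrictFDerivAt' he n
  refine (hf.to_localInverse he n).congr_of_eventuallyEq ?_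
  filter_upwards [hs.eventually_right_inverse, hs.localInverse_tendsto hU] with y h1 h2
  exact (congrArg g h1.symm).trans (hg _ h2)

/-- Primitives of smooth functions. -/
theorem prim_d {f : ℝ → ℝ} (h : Continuous f) (c r : ℝ) :
    HasDerivAt (fun r => ∫ x in c..r, f x) (f r) r := (h.integral_hasStrictDerivAt c r).hasDerivAt

theorem prim_cd {f : ℝ → ℝ} (h : ContDiff ℝ ∞ f) (c : ℝ) :
    ContDiff ℝ ∞ fun r => ∫ x in c..r, f x := by
  refine contDiff_infty_iff_deriv.2 ⟨fun r => (prim_d h.continuous c r).differentiableAt, ?_⟩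
  rw [show deriv (fun r => ∫ x in c..r, f x) = f from funext fun r =>
    (prim_d h.continuous c r).deriv]
  exact h

/-- The field (α r, ρ r) on the half plane r > r1 has the first integral F r exp (-k t), and T
grows along it. -/
structure Pl (r1 R1 k : ℝ) (α ρ F : ℝ → ℝ) (T : ℝ × ℝ → ℝ) : Prop where
  lt : r1 < R1
  k0 : 0 < k
  F_sm : ContDiff ℝ ∞ F
  F0 : F R1 = 0
  F' : ∀ r, 0 < deriv F r
  Ft : Tendsto F atTop atTop
  al : ∀ r > r1, 0 < α r
  eq : ∀ r > r1, ρ r * deriv F r = k * α r * F r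
  T_sm : ∀ w : ℝ × ℝ, r1 < w.2 → ContDiffAt ℝ ∞ T w
  XT : ∃ c > 0, ∀ w : ℝ × ℝ, r1 < w.2 → c * α w.2 ≤ fderiv ℝ T w (α w.2, ρ w.2)
  top : ∀ t, Tendsto T (𝓝 t ×ˢ 𝓝[>] r1) atTop

/-- The chart of the half plane, and the line with the label I. -/
def P2 (k : ℝ) (F : ℝ → ℝ) (T : ℝ × ℝ → ℝ) (w : ℝ × ℝ) : ℝ × ℝ :=
  (T w, F w.2 * Real.exp (-(k * w.1)))
def ln (k : ℝ) (F : ℝ → ℝ) (I t : ℝ) : ℝ × ℝ := (t, invFun F (I * Real.exp (k * t)))

namespace Pl

variable {r1 R1 k : ℝ} {α ρ F : ℝ → ℝ} {T : ℝ × ℝ → ℝ} (h : Pl r1 R1 k α ρ F T)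
include h

theorem mono : StrictMono F := strictMono_of_deriv_pos h.F'

theorem Fd (r : ℝ) : HasDerivAt F (deriv F r) r :=
  (h.F_sm.differentiable (by simp) r).hasDerivAt

theorem Fi (r : ℝ) : invFun F (F r) = r := leftInverse_invFun h.mono.injective r

theorem Fi_cd (r : ℝ) : ContDiffAt ℝ ∞ (invFun F) (F r) :=
  inv_sm univ_mem h.F_sm.contDiffAt (fun v e => by
    rw [(h.Fd r).hasFDerivAt.fderiv] at e
    simpa [(h.F' r).ne'] using e) fun z _ => h.Fi z

theorem ex {y : ℝ} (hy : F r1 < y) : ∃ r > r1, F r = y := by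
  obtain ⟨r, h1, h2⟩ := isPreconnected_Ici.intermediate_value_Ici (self_mem_Ici (a := r1))
    (le_principal_iff.2 (Ici_mem_atTop r1)) h.F_sm.continuous.continuousOn h.Ft hy.le
  exact ⟨r, h.mono.lt_iff_lt.1 (h2 ▸ hy), h2⟩

theorem Fi_d (r : ℝ) : HasDerivAt (invFun F) (deriv F r)⁻¹ (F r) := by
  have d := ((h.Fi_cd r).differentiableAt (by simp)).hasDerivAt
  have e := (d.comp r (h.Fd r)).unique ((hasDerivAt_id r).congr_of_eventuallyEq
    (Eventually.of_forall fun z => h.Fi z))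
  rw [← eq_div_iff (h.F' r).ne', one_div] at e
  exact e ▸ d

theorem neg : F r1 < 0 := h.F0 ▸ h.mono h.lt

theorem ln_eq {I t r : ℝ} (e : F r = I * Real.exp (k * t)) : ln k F I t = (t, r) := by
  rw [ln, ← e, h.Fi]

theorem ln_d {I t r : ℝ} (hr : r1 < r) (e : F r = I * Real.exp (k * t)) :
    HasDerivAt (ln k F I) ((α r)⁻¹ • (α r, ρ r)) t := by
  have d := (h.Fi_d r).comp_of_eq t
    ((((hasDerivAt_id t).const_mul k).exp).const_mul I) e
  refine ((hasDerivAt_id t).prodMk d).congr_deriv ?_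
  have a0 := (h.al r hr).ne'
  have f0 := (h.F' r).ne'
  simp only [id, ← mul_assoc, ← e, Prod.smul_mk, smul_eq_mul, inv_mul_cancel₀ a0, Prod.mk.injEq,
    true_and]
  field_simp
  linear_combination -h.eq r hr

theorem cvx (I : ℝ) : Convex ℝ {t | F r1 < I * Real.exp (k * t)} := by
  refine convex_iff_ordConnected.2 ⟨fun x _ y hy z hz => ?_⟩
  rcases le_total 0 I with i | i
  · exact h.neg.trans_le (by positivity)
  · have : Real.exp (k * z) ≤ Real.exp (k * y) := by gcongr; exacts [h.k0.le, hz.2]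
    exact lt_of_lt_of_le hy (mul_le_mul_of_nonpos_left this i)

theorem grow : ∃ c > 0, ∀ I, ContinuousOn (T ∘ ln k F I) {t | F r1 < I * Real.exp (k * t)} ∧
    ∀ x, F r1 < I * Real.exp (k * x) → ∀ y, F r1 < I * Real.exp (k * y) → x ≤ y →
      c * (y - x) ≤ T (ln k F I y) - T (ln k F I x) := by
  obtain ⟨c, c0, hc⟩ := h.XT
  refine ⟨c, c0, fun I => ?_⟩
  have key : ∀ t, F r1 < I * Real.exp (k * t) → DifferentiableAt ℝ (T ∘ ln k F I) t ∧
      c ≤ deriv (T ∘ ln k F I) t := fun t ht => by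
    obtain ⟨r, hr, e⟩ := h.ex ht
    have d := ((h.T_sm (t, r) hr).differentiableAt (by simp)).hasFDerivAt.comp_hasDerivAt_of_eq t
      (h.ln_d hr e) (h.ln_eq e).symm
    refine ⟨d.differentiableAt, ?_⟩
    rw [d.deriv, map_smul, smul_eq_mul, ← div_eq_inv_mul, le_div_iff₀ (h.al r hr)]
    exact hc (t, r) hr
  have ct : ContinuousOn (T ∘ ln k F I) {t | F r1 < I * Real.exp (k * t)} := fun t ht =>
    (key t ht).1.continuousAt.continuousWithinAt
  exact ⟨ct, (h.cvx I).mul_sub_le_image_sub_of_le_deriv ct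
    (fun t ht => (key t (interior_subset ht :)).1.differentiableWithinAt)
    fun t ht => (key t (interior_subset ht :)).2⟩

omit h in
theorem lab (t r : ℝ) : F r = F r * Real.exp (-(k * t)) * Real.exp (k * t) := by
  rw [mul_assoc, ← Real.exp_add, neg_add_cancel, Real.exp_zero, mul_one]

theorem inj : InjOn (P2 k F T) {w | r1 < w.2} := by
  obtain ⟨c, c0, hc⟩ := h.grow
  have key : ∀ w w' : ℝ × ℝ, r1 < w.2 → r1 < w'.2 → P2 k F T w = P2 k F T w' → w.1 ≤ w'.1 →
      w = w' := fun w w' h1 h2 e l => by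
    obtain ⟨e1, e2⟩ := Prod.mk.inj e
    have a1 := lab (F := F) (k := k) w.1 w.2
    have a2 := lab (F := F) (k := k) w'.1 w'.2
    rw [← e2] at a2
    have b := (hc _).2 w.1 (a1 ▸ h.mono h1) w'.1 (a2 ▸ h.mono h2) l
    rw [h.ln_eq a1, h.ln_eq a2, e1, sub_self] at b
    have e3 : w.1 = w'.1 := le_antisymm l (by nlinarith)
    exact (h.ln_eq a1).symm.trans (e3 ▸ h.ln_eq (e3 ▸ a2))
  intro w h1 w' h2 e
  rcases le_total w.1 w'.1 with l | l
  exacts [key w w' h1 h2 e l, (key w' w h2 h1 e.symm l).symm]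

theorem surj (s I : ℝ) : ∃ w : ℝ × ℝ, r1 < w.2 ∧ P2 k F T w = (s, I) := by
  obtain ⟨c, c0, hc⟩ := h.grow
  obtain ⟨ct, gr⟩ := hc I
  have lo : ∀ᶠ t in atBot, F r1 < I * Real.exp (k * t) :=
    ((Real.tendsto_exp_atBot.comp (tendsto_id.const_mul_atBot h.k0)).const_mul I).eventually
      (lt_mem_nhds (by simpa using h.neg))
  obtain ⟨t0, h0⟩ := lo.exists
  have l1 : Tendsto (T ∘ ln k F I) atBot atBot := by
    refine tendsto_atBot_mono' _ ?_ (tendsto_atBot_add_const_right _ (T (ln k F I t0) - c * t0)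
      (tendsto_id.const_mul_atBot c0))
    filter_upwards [lo, eventually_le_atBot t0] with t h1 h2
    have := gr t h1 t0 h0 h2
    simp only [comp, id]
    linarith
  have fin : ∀ l : Filter ℝ, l.NeBot → (∀ᶠ t in l, F r1 < I * Real.exp (k * t)) →
      Tendsto (T ∘ ln k F I) l atTop → ∃ w : ℝ × ℝ, r1 < w.2 ∧ P2 k F T w = (s, I) := by
    intro l _ h1 h2
    obtain ⟨t, ht, e⟩ := (h.cvx I).isPreconnected.intermediate_value_Iii (le_principal_iff.2 lo)
      (le_principal_iff.2 h1) ct l1 h2 (mem_univ s)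
    obtain ⟨r, hr, e2⟩ := h.ex ht
    refine ⟨(t, r), hr, Prod.ext ((congrArg T (h.ln_eq e2)).symm.trans e) ?_⟩
    simp only [P2, e2, mul_assoc, ← Real.exp_add, add_neg_cancel, Real.exp_zero, mul_one]
  rcases le_or_gt 0 I with i | i
  · have al : ∀ t, F r1 < I * Real.exp (k * t) := fun t => h.neg.trans_le (by positivity)
    refine fin atTop inferInstance (Eventually.of_forall al) (tendsto_atTop_mono' _ ?_
      (tendsto_atTop_add_const_right _ (T (ln k F I t0) - c * t0) (tendsto_id.const_mul_atTop c0)))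
    filter_upwards [eventually_ge_atTop t0] with t h2
    have := gr t0 h0 t (al t) h2
    simp only [comp, id]
    linarith
  · have e : F r1 = I * Real.exp (k * (Real.log (F r1 / I) / k)) := by
      rw [mul_div_cancel₀ _ h.k0.ne', Real.exp_log (div_pos_of_neg_of_neg h.neg i),
        mul_div_cancel₀ _ i.ne]
    generalize Real.log (F r1 / I) / k = t1 at e
    have ev : ∀ᶠ t in 𝓝[<] t1, F r1 < I * Real.exp (k * t) := by
      filter_upwards [self_mem_nhdsWithin] with t ht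
      rw [e]
      exact mul_lt_mul_of_neg_left (Real.exp_lt_exp.2 (mul_lt_mul_of_pos_left ht h.k0)) i
    refine fin (𝓝[<] t1) inferInstance ev ((h.top t1).comp (Tendsto.prodMk
      (tendsto_id.mono_left nhdsWithin_le_nhds) (tendsto_nhdsWithin_iff.2 ⟨?_, ?_⟩)))
    · have c1 := (h.Fi_cd r1).continuousAt.tendsto
      rw [h.Fi, e] at c1
      exact (c1.comp (Continuous.tendsto (by fun_prop) t1)).mono_left nhdsWithin_le_nhds
    · filter_upwards [ev] with t ht
      obtain ⟨r, hr, e2⟩ := h.ex ht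
      rw [← e2, h.Fi]
      exact hr

theorem P2_cd {w : ℝ × ℝ} (hw : r1 < w.2) : ContDiffAt ℝ ∞ (P2 k F T) w :=
  (h.T_sm w hw).prodMk ((h.F_sm.contDiffAt.comp w contDiffAt_snd).mul (by fun_prop))

/-- The inverse of the chart. -/
theorem inv : ∃ Q : ℝ × ℝ → ℝ × ℝ, ContDiff ℝ ∞ Q ∧ (∀ y, r1 < (Q y).2 ∧ P2 k F T (Q y) = y) ∧
    ∀ w : ℝ × ℝ, r1 < w.2 → Q (P2 k F T w) = w := by
  have li : ∀ w : ℝ × ℝ, r1 < w.2 → invFunOn (P2 k F T) {w | r1 < w.2} (P2 k F T w) = w :=
    fun w hw => h.inj.leftInvOn_invFunOn hw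
  refine ⟨invFunOn (P2 k F T) {w | r1 < w.2}, contDiff_iff_contDiffAt.2 fun y => ?_, fun y => ?_,
    li⟩
  · obtain ⟨w, hw, e⟩ := h.surj y.1 y.2
    rw [show y = P2 k F T w from e.symm]
    refine inv_sm ((isOpen_lt continuous_const continuous_snd).mem_nhds hw) (h.P2_cd hw)
      (fun v e => ?_) li
    obtain ⟨c, c0, hc⟩ := h.XT
    have d1 := ((h.T_sm w hw).differentiableAt (by simp)).hasFDerivAt
    have d2 := ((h.Fd w.2).comp_hasFDerivAt w hasFDerivAt_snd).mul
      ((hasFDerivAt_fst (𝕜 := ℝ) (p := w)).const_mul k).neg.exp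
    rw [show fderiv ℝ (P2 k F T) w = _ from (d1.prodMk d2).fderiv] at e
    obtain ⟨e1, e2⟩ := Prod.mk.inj e
    simp at e2
    have a0 := h.al _ hw
    have e3 : deriv F w.2 * v.2 = k * F w.2 * v.1 :=
      mul_left_cancel₀ (Real.exp_pos (-(k * w.1))).ne' (by linarith)
    have e4 : v = (v.1 / α w.2) • (α w.2, ρ w.2) := by
      refine Prod.ext (by simp [a0.ne']) (mul_left_cancel₀ (h.F' w.2).ne' ?_)
      simp only [Prod.smul_mk, smul_eq_mul]
      field_simp
      linear_combination α w.2 * e3 - v.1 * h.eq _ hw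
    have e5 : fderiv ℝ T w v = 0 := e1
    rw [e4, map_smul, smul_eq_mul] at e5
    have e6 := (mul_eq_zero.1 e5).resolve_right ((mul_pos c0 a0).trans_le (hc w hw)).ne'
    rw [e4, e6, zero_smul]
  · obtain ⟨w, hw, e⟩ := h.surj y.1 y.2
    exact invFunOn_pos (s := {w : ℝ × ℝ | r1 < w.2}) ⟨w, hw, e⟩

end Pl

end Vale.Agent.P354YT
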