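import Vale.Agent.P354YT.Defs
import Vale.Agent.P354YT.Pl
import Vale.Agent.P354XA.Lid

/-!
The functions of one variable: cut-offs, the components of X, the first integrals.
-/

open scoped ContDiff
open Set Filter Topology

noncomputable section

namespace Vale.Agent.P354YT

open Vale.Agent.P354I (rm rp)
open Vale.Agent.P354R (Del)
open Vale.Agent.P354XE
open Vale.Agent.P354XA (hor lo1)
open Real (smoothTransition)

theorem cd_mul {f g : ℝ → ℝ} {b e : ℝ} (hf : ContDiff ℝ ∞ f) (h0 : ∀ x < b, f x = 0) (he : e < b)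
    (hg : ∀ x > e, ContDiffAt ℝ ∞ g x) : ContDiff ℝ ∞ fun x => f x * g x := by
  refine contDiff_iff_contDiffAt.2 fun x => ?_
  rcases lt_or_ge x b with h | h
  · refine (contDiffAt_const (c := 0)).congr_of_eventuallyEq ?_
    filter_upwards [gt_mem_nhds h] with y hy
    rw [h0 y hy, zero_mul]
  · exact hf.contDiffAt.mul (hg x (he.trans_le h))

theorem st_cd : ContDiff ℝ ∞ smoothTransition := smoothTransition.contDiff
theorem st_mem (x : ℝ) : 0 ≤ smoothTransition x ∧ smoothTransition x ≤ 1 :=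
  ⟨smoothTransition.nonneg x, smoothTransition.le_one x⟩
theorem st_sub (b : ℝ) : ContDiff ℝ ∞ fun x => smoothTransition (x - b) :=
  st_cd.comp (contDiff_id.sub contDiff_const)

theorem const_of {f : ℝ → ℝ} {b r : ℝ} (h : ∀ x ≥ b, HasDerivAt f 0 x) (hr : b ≤ r) : f r = f b :=
  constant_of_has_deriv_right_zero (fun x hx => (h x hx.1).continuousAt.continuousWithinAt)
    (fun x hx => (h x hx.1).hasDerivWithinAt) r ⟨hr, le_rfl⟩

variable {x : ℝ}

theorem sg_cd : ContDiff ℝ ∞ sg := st_cd.comp (by fun_prop)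
theorem sg_zero (h : x ≤ 1 / 4) : sg x = 0 := smoothTransition.zero_of_nonpos (by linarith)
theorem sg_one (h : 1 / 2 ≤ x) : sg x = 1 := smoothTransition.one_of_one_le (by linarith)
theorem sg_mem (x : ℝ) : 0 ≤ sg x ∧ sg x ≤ 1 := st_mem _
theorem al_neg (x : ℝ) : al (-x) = al x := by rw [al, al, neg_neg]; ring
theorem al_cd : ContDiff ℝ ∞ al := (contDiff_const.sub sg_cd).sub (sg_cd.comp contDiff_neg)
theorem bp_cd : ContDiff ℝ ∞ bp := ((al_cd.mul contDiff_id).div_const 2).add sg_cd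
theorem s1_cd : ContDiff ℝ ∞ s1 :=
  cd_mul (b := 1 / 4) (e := 0) sg_cd (fun _ h => sg_zero h.le) (by norm_num)
    fun _ h => contDiffAt_id.inv h.ne'
theorem s2_cd : ContDiff ℝ ∞ s2 :=
  cd_mul (b := 1 / 4) (e := 0) sg_cd (fun _ h => sg_zero h.le) (by norm_num)
    fun _ h => (contDiffAt_id.pow 2).inv (pow_pos h 2).ne'
theorem rt_cd : ContDiff ℝ ∞ rt := (al_cd.add s1_cd).add (s1_cd.comp contDiff_neg)

theorem al_out (h : 1 / 2 ≤ x) : al x = 0 ∧ bp x = 1 ∧ bp (-x) = 0 := by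
  have e : al x = 0 := by rw [al, sg_one h, sg_zero (by linarith)]; ring
  simp only [bp, al_neg, e, sg_one h, sg_zero (show -x ≤ 1 / 4 by linarith)]
  norm_num

theorem al_in (h : x ≤ -(1 / 2)) : al x = 0 ∧ bp x = 0 ∧ bp (-x) = 1 := by
  have := al_out (x := -x) (by linarith)
  rw [al_neg, neg_neg] at this
  exact ⟨this.1, this.2.2, this.2.1⟩

theorem al_mid (h : |x| ≤ 1 / 4) : al x = 1 ∧ bp x = x / 2 ∧ bp (-x) = -(x / 2) := by
  obtain ⟨h1, h2⟩ := abs_le.1 h
  have e : al x = 1 := by rw [al, sg_zero h2, sg_zero (by linarith)]; ring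
  simp only [bp, al_neg, e, sg_zero h2, sg_zero (show -x ≤ 1 / 4 by linarith)]
  refine ⟨trivial, by ring, by ring⟩

theorem al_nonneg (x : ℝ) : 0 ≤ al x := by
  rcases le_total x 0 with h | h
  · rw [al, sg_zero (by linarith)]; linarith [(sg_mem (-x)).2]
  · rw [al, sg_zero (x := -x) (by linarith)]; linarith [(sg_mem x).2]

theorem al_x (x : ℝ) : |al x * x| ≤ al x / 2 := by
  rcases le_or_gt (1 / 2) x with h | h
  · simp [(al_out h).1]
  rcases le_or_gt x (-(1 / 2)) with h' | h'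
  · simp [(al_in h').1]
  rw [abs_mul, abs_of_nonneg (al_nonneg x)]
  have : |x| ≤ 1 / 2 := abs_le.2 ⟨h'.le, h.le⟩
  nlinarith [al_nonneg x]

theorem s1_nonneg (x : ℝ) : 0 ≤ s1 x := by
  rcases le_or_gt x 0 with h | h
  · simp [s1, sg_zero (show x ≤ 1 / 4 by linarith)]
  · exact div_nonneg (sg_mem x).1 h.le

theorem s1_mul (x : ℝ) : x * s1 x = sg x := by
  rcases eq_or_ne x 0 with rfl | h
  · rw [sg_zero (by norm_num), zero_mul]
  · rw [s1, mul_div_cancel₀ _ h]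

theorem s2_mul (x : ℝ) : x * s2 x = s1 x := by
  rcases eq_or_ne x 0 with rfl | h
  · simp [s1]
  · rw [s1, s2]; field_simp

theorem rt_pos (x : ℝ) : 0 < rt x := by
  have h1 := al_nonneg x
  have h2 := s1_nonneg x
  have h3 := s1_nonneg (-x)
  by_contra k
  have e1 : al x = 0 := by unfold rt at k; linarith
  have e2 : s1 x = 0 := by unfold rt at k; linarith
  have e3 : s1 (-x) = 0 := by unfold rt at k; linarith
  rw [al, ← s1_mul, ← s1_mul, e2, e3] at e1
  norm_num at e1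

theorem rt_mul (x : ℝ) : bp x - bp (-x) = x * rt x := by
  simp only [bp, rt, al_neg, ← s1_mul]; ring

/-- The derivative along X of v - ∫ h dr; Q is (r^2 + a^2) / Δ. -/
def xh (x Q h : ℝ) : ℝ := al x + bp x * (2 * Q - h) + bp (-x) * h

theorem xh_pos {Q h : ℝ} (h0 : 0 < h) (hq : -(1 / 2) < x → h < 2 * Q ∧ Q ≤ 5 / 4) :
    0 < xh x Q h := by
  rcases le_or_gt x (-(1 / 2)) with k | k
  · obtain ⟨e1, e2, e3⟩ := al_in k
    rw [xh, e1, e2, e3]
    linarith
  obtain ⟨k1, k2⟩ := hq k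
  have e : xh x Q h = al x + al x * x * (Q - h) + sg x * (2 * Q - h) + sg (-x) * h := by
    simp only [xh, bp, al_neg]; ring
  have a1 : |al x * x * (Q - h)| ≤ al x / 2 * (5 / 4) := by
    rw [abs_mul]
    exact mul_le_mul (al_x x) (abs_le.2 ⟨by linarith, by linarith⟩) (abs_nonneg _)
      (by linarith [al_nonneg x])
  have a2 := neg_abs_le (al x * x * (Q - h))
  have a3 := mul_nonneg (sg_mem x).1 (sub_pos.2 k1).le
  have a4 := mul_nonneg (sg_mem (-x)).1 h0.le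
  rw [e]
  rcases (al_nonneg x).eq_or_lt with z | z
  · rcases (sg_mem x).1.eq_or_lt with z1 | z1
    · have : sg (-x) = 1 := by unfold al at z; linarith
      rw [← z, ← z1, this]
      linarith
    · have := mul_pos z1 (sub_pos.2 k1)
      rw [← z]
      linarith
  · linarith

section
variable {M a r : ℝ}

theorem Del_pos (h : |a| < M) (hr : rp M a < r) : 0 < Del M a r := by
  obtain ⟨-, -, h2, -, -, h5, -⟩ := hor h
  rw [h5]
  exact mul_pos (sub_pos.2 hr) (by linarith)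

theorem Del_cd (M a : ℝ) : ContDiff ℝ ∞ (Del M a) := by unfold Del; fun_prop

theorem qm_cd (h : |a| < M) (hr : rp M a < r) : ContDiffAt ℝ ∞ (qm M a) r :=
  (contDiffAt_const.mul contDiffAt_id).div (Del_cd M a).contDiffAt (Del_pos h hr).ne'

theorem lo1_eq (h : Del M a r ≠ 0) : lo1 M a r = 2 * qm M a r + 1 := by
  rw [lo1, qm]; field_simp; unfold Del; ring

theorem qm_pos (h : |a| < M) (hr : rp M a < r) : 0 < qm M a r := by
  obtain ⟨h0, h1, h2, -⟩ := hor h
  exact div_pos (by have : 0 < r := by linarith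
                    positivity) (Del_pos h hr)

theorem rp_lt (h : |a| < M) (hr : 10 * M ≤ r) : rp M a < r := by
  obtain ⟨h0, -, -, h3, -⟩ := hor h
  linarith

theorem qm_le (h : |a| < M) (hr : 10 * M ≤ r) : qm M a r ≤ 1 / 4 := by
  have h0 := (hor h).1
  rw [qm, div_le_iff₀ (Del_pos h (rp_lt h hr)), Del]
  nlinarith [sq_nonneg a]

theorem qm_mul (h : Del M a r ≠ 0) : Del M a r * (1 + qm M a r) = r ^ 2 + a ^ 2 := by
  rw [qm]; field_simp; unfold Del; ring

theorem psi_tb (M a r : ℝ) : P354XA.psi M a r = r + 2 * tb M a r := by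
  rw [P354XA.psi, tb]; ring

theorem tb_d (h : |a| < M) (hr : rp M a < r) : HasDerivAt (tb M a) (qm M a r) r := by
  have := ((P354XA.psi_deriv h hr).sub (hasDerivAt_id r)).div_const 2
  rw [lo1_eq (Del_pos h hr).ne'] at this
  refine (this.congr_deriv (by ring)).congr_of_eventuallyEq (Eventually.of_forall fun y => ?_)
  simp only [psi_tb, Pi.sub_apply, id]
  ring

end

namespace Pm

variable (c : Pm)

/-- The components of X along t, r and φ. -/
def aa (r : ℝ) : ℝ := al (c.xi r) + bp (c.xi r) * lo1 c.M c.a r + bp (-c.xi r)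
def rr (r : ℝ) : ℝ := c.xi r * rt (c.xi r)
def om (r : ℝ) : ℝ := bp (c.xi r) * (2 * c.a / Del c.M c.a r)

variable {c} (h : c.Ok) {r : ℝ}

theorem xi_cd : ContDiff ℝ ∞ c.xi := by unfold xi; fun_prop

include h

theorem Ok.k0 : 0 < c.k := by linarith [h.k]
theorem Ok.M0 : 0 < c.M := (hor h.sub).1
theorem Ok.r10 : 0 < c.r1 := (hor h.sub).2.1.trans_lt h.r1.1
theorem Ok.rpR : rp c.M c.a < c.R1 - 1 / 2 := rp_lt h.sub (by linarith [h.R1])
theorem Ok.lt : c.r1 < c.R1 := by linarith [h.r1.2, h.rpR]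

theorem Ok.xi_in (hr : r ≤ c.R1 - 1 / 2) : c.xi r ≤ -(1 / 2) := by
  unfold xi; nlinarith [h.k]

theorem Ok.xi_out (hr : c.R1 + 1 / 2 ≤ r) : 1 / 2 ≤ c.xi r := by
  unfold xi; nlinarith [h.k]

theorem Ok.big (hx : -(1 / 2) < c.xi r) : 10 * c.M ≤ r := by
  by_contra k
  linarith [h.xi_in (r := r) (by linarith [h.R1])]

theorem Ok.xi_pos : (0 < c.xi r ↔ c.R1 < r) ∧ (c.xi r < 0 ↔ r < c.R1) :=
  ⟨(mul_pos_iff_of_pos_left h.k0).trans sub_pos, by
    rw [xi, ← neg_pos, ← mul_neg, mul_pos_iff_of_pos_left h.k0, neg_pos, sub_neg]⟩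

theorem Ok.cd_in {f g : ℝ → ℝ} (hf : ContDiff ℝ ∞ f) (h0 : ∀ x ≤ -(1 / 2), f x = 0)
    (hg : ∀ x > rp c.M c.a, ContDiffAt ℝ ∞ g x) : ContDiff ℝ ∞ fun r => f (c.xi r) * g r :=
  cd_mul (hf.comp xi_cd) (fun _ k => h0 _ (h.xi_in k.le)) h.rpR hg

/-- The derivative of t - ∫ σ dr along X. -/
theorem Ok.xh_eq (r σ : ℝ) : c.aa r - σ * c.rr r = xh (c.xi r) (1 + qm c.M c.a r) (1 + σ) := by
  rw [aa, rr, ← rt_mul, xh]
  rcases le_or_gt (c.xi r) (-(1 / 2)) with k | k
  · rw [(al_in k).2.1]; ring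
  · rw [lo1_eq (Del_pos h.sub (rp_lt h.sub (h.big k))).ne']; ring

theorem Ok.X_pos {σ : ℝ} (h0 : -1 < σ) (h1 : 10 * c.M ≤ r → σ < 2 * qm c.M c.a r + 1) :
    0 < c.aa r - σ * c.rr r := by
  rw [h.xh_eq]
  exact xh_pos (by linarith) fun k =>
    ⟨by linarith [h1 (h.big k)], by linarith [qm_le h.sub (h.big k)]⟩

theorem Ok.aa_pos (r : ℝ) : 0 < c.aa r := by
  simpa using h.X_pos (r := r) (σ := 0) (by norm_num)
    fun k => by linarith [qm_pos h.sub (rp_lt h.sub k)]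

theorem Ok.aa_le (r : ℝ) : c.aa r ≤ 2 := by
  rw [aa]
  rcases le_or_gt (c.xi r) (-(1 / 2)) with k | k
  · obtain ⟨e1, e2, e3⟩ := al_in k
    rw [e1, e2, e3]; norm_num
  have q0 := qm_pos h.sub (rp_lt h.sub (h.big k))
  have q1 := qm_le h.sub (h.big k)
  rw [lo1_eq (Del_pos h.sub (rp_lt h.sub (h.big k))).ne']
  have a1 := (abs_le.1 (al_x (c.xi r))).2
  have a2 := al_nonneg (c.xi r)
  have a3 := sg_mem (c.xi r)
  have a4 := sg_mem (-c.xi r)
  have a5 : al (c.xi r) + sg (c.xi r) + sg (-c.xi r) = 1 := by unfold al; ring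
  simp only [bp, al_neg]
  nlinarith

theorem Ok.aa_cd : ContDiff ℝ ∞ c.aa :=
  ((al_cd.comp xi_cd).add (h.cd_in bp_cd (fun _ k => (al_in k).2.1) fun _ k =>
    ((contDiffAt_const.mul (by fun_prop)).div (Del_cd _ _).contDiffAt (Del_pos h.sub k).ne').sub
      contDiffAt_const)).add (bp_cd.comp xi_cd.neg)

omit h in
theorem rr_cd : ContDiff ℝ ∞ c.rr := xi_cd.mul (rt_cd.comp xi_cd)

theorem Ok.ia_cd {x : ℝ} (k : rp c.M c.a < x) :
    ContDiffAt ℝ ∞ (fun x => 2 * c.a / Del c.M c.a x) x :=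
  contDiffAt_const.div (Del_cd _ _).contDiffAt (Del_pos h.sub k).ne'

theorem Ok.om_cd : ContDiff ℝ ∞ c.om :=
  h.cd_in bp_cd (fun _ k => (al_in k).2.1) fun _ k => h.ia_cd k

theorem Ok.J_cd : ContDiff ℝ ∞ c.J ∧ ∀ r, c.rr r * deriv c.J r = c.om r := by
  have k : ContDiff ℝ ∞ fun x =>
      (al (c.xi x) / 2 + s1 (c.xi x)) * (2 * c.a / Del c.M c.a x) / rt (c.xi x) :=
    (h.cd_in ((al_cd.div_const 2).add s1_cd) (fun x k => by
      simp [(al_in k).1, s1, sg_zero (show x ≤ 1 / 4 by linarith)]) fun _ k => h.ia_cd k).div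
      (rt_cd.comp xi_cd) fun _ => (rt_pos _).ne'
  refine ⟨prim_cd k _, fun r => ?_⟩
  rw [show deriv c.J r = _ from (prim_d k.continuous _ r).deriv, rr, om, bp, ← s1_mul]
  have := (rt_pos (c.xi r)).ne'
  field_simp

theorem Ok.F_cd : ContDiff ℝ ∞ c.F ∧ ∀ r, 0 < deriv c.F r ∧
    c.rr r * deriv c.F r = c.k * c.aa r * c.F r := by
  have k : ContDiff ℝ ∞ fun x => c.k *
      ((al (c.xi x) * qm c.M c.a x + s1 (c.xi x) * (2 * qm c.M c.a x + 1) - s1 (-c.xi x) -
        s2 (c.xi x) + s2 (-c.xi x)) / rt (c.xi x)) :=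
    contDiff_const.mul ((((((h.cd_in al_cd (fun _ k => (al_in k).1) fun _ k => qm_cd h.sub k).add
      (h.cd_in s1_cd (fun x k => by simp [s1, sg_zero (show x ≤ 1 / 4 by linarith)]) fun _ k =>
        (contDiffAt_const.mul (qm_cd h.sub k)).add contDiffAt_const)).sub
      (s1_cd.comp xi_cd.neg)).sub (s2_cd.comp xi_cd)).add (s2_cd.comp xi_cd.neg)).div
      (rt_cd.comp xi_cd) fun _ => (rt_pos _).ne')
  refine ⟨xi_cd.mul (prim_cd k _).exp, fun r => ?_⟩
  have d : HasDerivAt c.F _ r :=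
    (((hasDerivAt_id r).sub_const c.R1).const_mul c.k).mul (prim_d k.continuous c.R1 r).exp
  have r0 := rt_pos (c.xi r)
  have e : rt (c.xi r) * deriv c.F r = c.k * c.aa r * Real.exp (∫ x in c.R1..r, c.k *
      ((al (c.xi x) * qm c.M c.a x + s1 (c.xi x) * (2 * qm c.M c.a x + 1) - s1 (-c.xi x) -
        s2 (c.xi x) + s2 (-c.xi x)) / rt (c.xi x))) := by
    have e1 := h.xh_eq r 0
    have e2 := s2_mul (c.xi r)
    have e3 := s2_mul (-c.xi r)
    rw [zero_mul, sub_zero] at e1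
    rw [d.deriv, e1, show c.k * (id r - c.R1) = c.xi r from rfl]
    generalize Real.exp _ = E
    have r1 := r0.ne'
    field_simp
    simp only [xh, bp, al_neg, ← s1_mul, rt]
    linear_combination (-(c.k * E)) * e2 - c.k * E * e3
  refine ⟨(mul_pos_iff_of_pos_left r0).1 (e ▸ by have := h.k0; have := h.aa_pos r; positivity), ?_⟩
  rw [rr, mul_assoc, e, F]
  ring

end Pm

end Vale.Agent.P354YT
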