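import Vale.Agent.P354YT.Cut

/-!
The functions nu, G, W, be.
-/

open scoped ContDiff
open Set Filter Topology

noncomputable section

namespace Vale.Agent.P354YT

open Vale.Agent.P354I (rm rp)
open Vale.Agent.P354R (Del)
open Vale.Agent.P354XE
open Vale.Agent.P354XA (hor lo1)
open Real (smoothTransition)

theorem st_d (x : ℝ) : HasDerivAt smoothTransition (deriv smoothTransition x) x :=
  (st_cd.differentiable (by simp) x).hasDerivAt

theorem st_d0 (x : ℝ) : 0 ≤ deriv smoothTransition x := smoothTransition.monotone.deriv_nonneg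

theorem st_dz {x : ℝ} (h : x ≤ 0) : deriv smoothTransition x = 0 :=
  IsLocalMin.deriv_eq_zero (Eventually.of_forall fun y => by
    rw [smoothTransition.zero_of_nonpos h]; exact smoothTransition.nonneg y)

theorem st_dc : Continuous (deriv smoothTransition) := st_cd.continuous_deriv (by simp)

theorem sig_bd (y : ℝ) : Real.exp (-|y|) / 4 ≤ Real.sigmoid y * (1 - Real.sigmoid y) ∧
    Real.sigmoid y * (1 - Real.sigmoid y) ≤ Real.exp (-|y|) := by
  wlog h : 0 ≤ y generalizing y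
  · have := this (-y) (by linarith)
    rwa [abs_neg, Real.sigmoid_neg, sub_sub_cancel, mul_comm] at this
  have e0 := Real.exp_pos (-y)
  have e1 : Real.exp (-y) ≤ 1 := Real.exp_le_one_iff.2 (by linarith)
  have e : Real.sigmoid y * (1 - Real.sigmoid y) = Real.exp (-y) / (1 + Real.exp (-y)) ^ 2 := by
    rw [Real.sigmoid_def]; field_simp; ring
  rw [abs_of_nonneg h, e]
  exact ⟨div_le_div_of_nonneg_left e0.le (by positivity) (by nlinarith),
    div_le_self e0.le (by nlinarith)⟩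

theorem ash_bd (u : ℝ) : √(1 + u ^ 2) ≤ Real.exp |Real.arsinh u| ∧
    Real.exp |Real.arsinh u| ≤ 2 * √(1 + u ^ 2) := by
  wlog h : 0 ≤ u generalizing u
  · have := this (-u) (by linarith)
    rwa [Real.arsinh_neg, abs_neg, neg_sq] at this
  rw [abs_of_nonneg (Real.arsinh_nonneg_iff.2 h), Real.exp_arsinh]
  have : u ≤ √(1 + u ^ 2) := Real.le_sqrt_of_sq_le (by linarith)
  constructor <;> linarith

namespace Pm

variable {c : Pm} (h : c.Ok) {r : ℝ}

theorem G_d (r : ℝ) : HasDerivAt c.G (smoothTransition (r - c.Rs)) r :=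
  prim_d (st_sub _).continuous _ r
theorem G_cd : ContDiff ℝ ∞ c.G := prim_cd (st_sub _) _

theorem G_zero (hr : r ≤ c.Rs) : c.G r = 0 := by
  rw [G, intervalIntegral.integral_congr (g := fun _ => 0), intervalIntegral.integral_zero]
  intro x hx
  rw [uIcc_of_ge hr] at hx
  exact smoothTransition.zero_of_nonpos (sub_nonpos.2 hx.2)

theorem G_mono : Monotone c.G := monotone_of_deriv_nonneg (fun r => (G_d r).differentiableAt)
  fun r => (G_d r).deriv ▸ (st_mem _).1

theorem G_nonneg (r : ℝ) : 0 ≤ c.G r := by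
  rcases le_total r c.Rs with k | k
  · exact (G_zero k).ge
  · exact (G_zero le_rfl).ge.trans (G_mono k)

theorem G_le (hr : c.Rs ≤ r) : c.G r ≤ r - c.Rs := by
  have := monotone_of_deriv_nonneg (f := fun r => r - c.G r)
    (fun r => ((hasDerivAt_id r).sub (G_d r)).differentiableAt)
    (fun r => by
      rw [show deriv (fun r => r - c.G r) r = _ from ((hasDerivAt_id r).sub (G_d r)).deriv]
      linarith [(st_mem (r - c.Rs)).2]) hr
  simp only [G_zero le_rfl] at this
  linarith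

theorem G_aff (hr : c.Rs + 1 ≤ r) : c.G r = r - (c.Rs + 1 - c.G (c.Rs + 1)) := by
  have := const_of (f := fun r => c.G r - r) (fun x hx => ((G_d x).sub (hasDerivAt_id x)).congr_deriv
    (by rw [smoothTransition.one_of_one_le (by linarith), sub_self])) hr
  linarith

theorem G_ge (r : ℝ) : r - c.Rs - 1 ≤ c.G r := by
  rcases le_total r (c.Rs + 1) with k | k
  · linarith [G_nonneg (c := c) r]
  · linarith [G_aff k, G_nonneg (c := c) (c.Rs + 1)]

theorem W_cd : ContDiff ℝ ∞ c.W :=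
  ((contDiff_sigmoid.of_le le_top).comp (contDiff_const.mul Real.contDiff_arsinh)).div_const _

theorem W_d (u : ℝ) : HasDerivAt c.W (deriv c.W u) u :=
  (W_cd.differentiable (by simp) u).hasDerivAt

theorem W_dd (u : ℝ) : deriv c.W u = Real.sigmoid ((c.s - 1) * Real.arsinh u) *
    (1 - Real.sigmoid ((c.s - 1) * Real.arsinh u)) * ((c.s - 1) * (√(1 + u ^ 2))⁻¹) /
      (4 + (c.s - 1) * c.M) :=
  (((Real.hasDerivAt_sigmoid _).comp u
    ((Real.hasDerivAt_arsinh u).const_mul _)).div_const _).deriv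

include h

theorem Ok.W_mem (u : ℝ) : c.W u ∈ Icc (0 : ℝ) (1 / 4) := by
  have := mul_pos (sub_pos.2 h.s) h.M0
  exact ⟨div_nonneg (Real.sigmoid_nonneg _) (by linarith), div_le_div₀ zero_le_one
    (Real.sigmoid_le_one _) (by norm_num) (by linarith)⟩

theorem Ok.W_bd (u : ℝ) :
    (c.s - 1) / (4 * 2 ^ (c.s - 1) * (4 + (c.s - 1) * c.M)) * √(1 + u ^ 2) ^ (-c.s) ≤ deriv c.W u ∧
      deriv c.W u ≤ (c.s - 1) / (4 + (c.s - 1) * c.M) * √(1 + u ^ 2) ^ (-c.s) := by
  have s0 := sub_pos.2 h.s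
  have m0 := mul_pos s0 h.M0
  have w0 : 0 < √(1 + u ^ 2) := by positivity
  obtain ⟨b1, b2⟩ := sig_bd ((c.s - 1) * Real.arsinh u)
  obtain ⟨a1, a2⟩ := ash_bd u
  have e : Real.exp (-|(c.s - 1) * Real.arsinh u|) = Real.exp |Real.arsinh u| ^ (-(c.s - 1)) := by
    rw [← Real.exp_mul, abs_mul, abs_of_pos s0]; ring_nf
  have e2 : √(1 + u ^ 2) ^ (-c.s) = √(1 + u ^ 2) ^ (-(c.s - 1)) * (√(1 + u ^ 2))⁻¹ := by
    rw [← Real.rpow_neg_one, ← Real.rpow_add w0]; ring_nf
  have c1 := Real.rpow_le_rpow_of_nonpos w0 a1 (neg_nonpos.2 s0.le)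
  have c2 := Real.rpow_le_rpow_of_nonpos (Real.exp_pos _) a2 (neg_nonpos.2 s0.le)
  rw [Real.mul_rpow two_pos.le w0.le, Real.rpow_neg two_pos.le] at c2
  have t0 : (0 : ℝ) < 2 ^ (c.s - 1) := by positivity
  rw [e] at b1 b2
  rw [W_dd, e2]
  constructor
  · calc _ = (2 ^ (c.s - 1))⁻¹ * √(1 + u ^ 2) ^ (-(c.s - 1)) / 4 *
          ((c.s - 1) * (√(1 + u ^ 2))⁻¹) / (4 + (c.s - 1) * c.M) := by field_simp
      _ ≤ _ := by gcongr; linarith
  · calc _ ≤ √(1 + u ^ 2) ^ (-(c.s - 1)) * ((c.s - 1) * (√(1 + u ^ 2))⁻¹) /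
          (4 + (c.s - 1) * c.M) := by gcongr; linarith
      _ = _ := by field_simp

theorem Ok.uw_le (u : ℝ) : 0 < √(1 + u ^ 2) ^ (-c.s) ∧ √(1 + u ^ 2) ^ (-c.s) ≤ (√(1 + u ^ 2))⁻¹ ∧
    (√(1 + u ^ 2))⁻¹ ≤ 1 := by
  have w1 : 1 ≤ √(1 + u ^ 2) := Real.one_le_sqrt.2 (by nlinarith [sq_nonneg u])
  refine ⟨by positivity, ?_, inv_le_one_of_one_le₀ w1⟩
  rw [← Real.rpow_neg_one]
  exact Real.rpow_le_rpow_of_exponent_le w1 (by linarith [h.s])

theorem Ok.W_pos (u : ℝ) : 0 < deriv c.W u := by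
  have s0 := sub_pos.2 h.s
  have := h.M0
  exact lt_of_lt_of_le (mul_pos (by positivity) (h.uw_le u).1) (h.W_bd u).1

theorem Ok.W_le (u : ℝ) : deriv c.W u ≤ (c.s - 1) / 4 * √(1 + u ^ 2) ^ (-c.s) := by
  have s0 := sub_pos.2 h.s
  have m0 := mul_pos s0 h.M0
  refine (h.W_bd u).2.trans (mul_le_mul_of_nonneg_right ?_ (h.uw_le u).1.le)
  gcongr; linarith

theorem Ok.W_M (u : ℝ) : 4 * c.M * deriv c.W u ≤ 1 := by
  have s0 := sub_pos.2 h.s
  have m0 := mul_pos s0 h.M0
  have w := (h.uw_le u).2.2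
  have w0 : 0 < (√(1 + u ^ 2))⁻¹ := by positivity
  rw [W_dd, ← mul_div_assoc, div_le_one (by linarith)]
  generalize Real.sigmoid _ = y
  generalize (√(1 + u ^ 2))⁻¹ = z at *
  have e : 4 * (y * (1 - y)) ≤ 1 := by nlinarith [sq_nonneg (2 * y - 1)]
  nlinarith [mul_le_mul_of_nonneg_right e (mul_pos m0 w0).le, mul_le_mul_of_nonneg_left w m0.le]

/-! ### be -/

theorem Ok.bi_cd : ContDiff ℝ ∞ fun x => smoothTransition (x - c.Rb) * qm c.M c.a x :=
  cd_mul (st_sub _) (fun _ k => smoothTransition.zero_of_nonpos (sub_nonpos.2 k.le))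
    (rp_lt h.sub h.Rb) fun _ k => qm_cd h.sub k

theorem Ok.be_cd : ContDiff ℝ ∞ c.be := contDiff_const.add (prim_cd h.bi_cd _)

theorem Ok.be_d (r : ℝ) : HasDerivAt c.be (smoothTransition (r - c.Rb) * qm c.M c.a r) r :=
  (prim_d h.bi_cd.continuous _ r).const_add _

theorem Ok.bi_mem (r : ℝ) : 0 ≤ smoothTransition (r - c.Rb) * qm c.M c.a r ∧
    smoothTransition (r - c.Rb) * qm c.M c.a r ≤ 1 / 4 := by
  rcases le_total r c.Rb with k | k
  · rw [smoothTransition.zero_of_nonpos (sub_nonpos.2 k)]; norm_num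
  · have q0 := qm_pos h.sub (rp_lt h.sub (h.Rb.trans k))
    have q1 := qm_le h.sub (h.Rb.trans k)
    obtain ⟨s0, s1⟩ := st_mem (r - c.Rb)
    exact ⟨by positivity, by nlinarith⟩

theorem Ok.be_mono : Monotone c.be := monotone_of_deriv_nonneg
  (fun r => (h.be_d r).differentiableAt) fun r => (h.be_d r).deriv ▸ (h.bi_mem r).1

theorem Ok.be_far (hr : c.Rb + 1 ≤ r) : c.be r = tb c.M c.a r := by
  have := const_of (f := fun r => c.be r - tb c.M c.a r) (fun x hx => ((h.be_d x).sub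
    (tb_d h.sub (rp_lt h.sub (by linarith [h.Rb])))).congr_deriv
    (by rw [smoothTransition.one_of_one_le (by linarith), one_mul, sub_self])) hr
  simp only [be, intervalIntegral.integral_same] at this
  unfold be
  linarith

theorem Ok.be_near (hr : r ≤ c.Rb) : c.be r = c.be c.Rb :=
  (constant_of_has_deriv_right_zero (f := c.be) h.be_cd.continuous.continuousOn
    (fun x hx => ((h.be_d x).congr_deriv (by
      rw [smoothTransition.zero_of_nonpos (sub_nonpos.2 hx.2.le), zero_mul])).hasDerivWithinAt)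
    c.Rb ⟨hr, le_rfl⟩).symm

theorem Ok.tb_mono : MonotoneOn (tb c.M c.a) (Ioi (rp c.M c.a)) :=
  monotoneOn_of_deriv_nonneg (convex_Ioi _)
    (fun _ k => (tb_d h.sub k).continuousAt.continuousWithinAt)
    (fun _ k => (tb_d h.sub (interior_subset k)).differentiableAt.differentiableWithinAt)
    fun _ k => (tb_d h.sub (interior_subset k)).deriv ▸ (qm_pos h.sub (interior_subset k)).le

theorem Ok.be_ge (hr : rp c.M c.a < r) : tb c.M c.a r ≤ c.be r := by
  rcases le_total r (c.Rb + 1) with k | k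
  · have d := fun x (k : x ∈ Ioi (rp c.M c.a)) => (tb_d h.sub k).sub (h.be_d x)
    have := monotoneOn_of_deriv_nonneg (convex_Ioi _)
      (fun x k => (d x k).continuousAt.continuousWithinAt)
      (fun x k => (d x (interior_subset k)).differentiableAt.differentiableWithinAt)
      (fun x k => by
        rw [(d x (interior_subset k)).deriv]
        nlinarith [qm_pos h.sub (interior_subset k : x ∈ Ioi _), (st_mem (x - c.Rb)).2])
      hr (hr.trans_le k) k
    simp only [Pi.sub_apply, h.be_far le_rfl] at this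
    linarith
  · exact (h.be_far k).ge

/-! ### nu -/

theorem Ok.ni_cd : ContDiff ℝ ∞ fun x =>
    smoothTransition (x - c.R1) * (1 / 2 - 2 * qm c.M c.a x + deriv c.H x) :=
  cd_mul (st_sub _) (fun _ k => smoothTransition.zero_of_nonpos (sub_nonpos.2 k.le))
    (e := rp c.M c.a) (by linarith [h.rpR]) fun _ k =>
      (contDiffAt_const.sub (contDiffAt_const.mul (qm_cd h.sub k))).add
        (contDiff_infty_iff_deriv.1 h.sm).2.contDiffAt

omit h in
variable (c) in
/-- The inner and the outer part of the derivative of nu. -/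
def n1 (r : ℝ) : ℝ := (deriv smoothTransition (rp c.M c.a - r) * (r - c.r1) +
  smoothTransition (rp c.M c.a - r))
omit h in
variable (c) in
def n2 (r : ℝ) : ℝ := smoothTransition (r - c.R1) * (1 / 2 - 2 * qm c.M c.a r + deriv c.H r)

theorem Ok.nu_cd (hr : c.r1 < r) : ContDiffAt ℝ ∞ c.nu r :=
  ((st_cd.comp (contDiff_const.sub contDiff_id)).contDiffAt.div
    (contDiffAt_id.sub contDiffAt_const) (sub_pos.2 hr).ne').add (prim_cd h.ni_cd _).contDiffAt

theorem Ok.nu_d (hr : c.r1 < r) : HasDerivAt c.nu (c.n2 r - c.n1 r / (r - c.r1) ^ 2) r := by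
  refine ((((st_d _).comp r ((hasDerivAt_id r).const_sub _)).div ((hasDerivAt_id r).sub_const _)
    (sub_pos.2 hr).ne').add (prim_d h.ni_cd.continuous _ r)).congr_deriv ?_
  simp only [n1, n2, id, Function.comp]
  ring

omit h in
theorem n1_nonneg (hr : c.r1 ≤ r) : 0 ≤ c.n1 r :=
  add_nonneg (mul_nonneg (st_d0 _) (sub_nonneg.2 hr)) (st_mem _).1

omit h in
theorem n1_zero (hr : rp c.M c.a ≤ r) : c.n1 r = 0 := by
  rw [n1, st_dz (sub_nonpos.2 hr), smoothTransition.zero_of_nonpos (sub_nonpos.2 hr)]; ring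

omit h in
theorem n2_zero (hr : r ≤ c.R1) : c.n2 r = 0 := by
  rw [n2, smoothTransition.zero_of_nonpos (sub_nonpos.2 hr), zero_mul]

theorem Ok.n2_nonneg (r : ℝ) : 0 ≤ c.n2 r := by
  rcases le_total r c.R1 with k | k
  · exact (n2_zero k).ge
  · exact mul_nonneg (st_mem _).1 (by linarith [h.out r k])

theorem Ok.nu_anti : AntitoneOn c.nu (Ioc c.r1 c.R1) :=
  antitoneOn_of_deriv_nonpos (convex_Ioc _ _)
    (fun _ k => (h.nu_d k.1).continuousAt.continuousWithinAt)
    (fun _ k => (h.nu_d (interior_subset k).1).differentiableAt.differentiableWithinAt)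
    fun x k => by
      have k := interior_subset k
      rw [(h.nu_d k.1).deriv, n2_zero k.2, zero_sub, neg_nonpos]
      exact div_nonneg (n1_nonneg k.1.le) (sq_nonneg _)

theorem Ok.nu_mono : MonotoneOn c.nu (Ici c.R1) :=
  monotoneOn_of_deriv_nonneg (convex_Ici _)
    (fun _ k => (h.nu_d (h.lt.trans_le k)).continuousAt.continuousWithinAt)
    (fun _ k => (h.nu_d (h.lt.trans_le (interior_subset k))).differentiableAt.differentiableWithinAt)
    fun x k => by
      have k : c.R1 ≤ x := interior_subset k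
      rw [(h.nu_d (h.lt.trans_le k)).deriv, n1_zero (by linarith [h.rpR]), zero_div, sub_zero]
      exact h.n2_nonneg x

omit h in
theorem nu_in (hr : r ≤ c.R1) : c.nu r = smoothTransition (rp c.M c.a - r) / (r - c.r1) := by
  rw [nu, intervalIntegral.integral_congr (g := fun _ => 0), intervalIntegral.integral_zero,
    add_zero]
  intro x hx
  rw [uIcc_of_ge hr] at hx
  exact n2_zero hx.2

omit h in
theorem nu_zero (hr : r ∈ Icc (rp c.M c.a) c.R1) : c.nu r = 0 := by
  rw [nu_in hr.2, smoothTransition.zero_of_nonpos (sub_nonpos.2 hr.1), zero_div]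

theorem Ok.nu_nonneg (hr : c.r1 < r) : 0 ≤ c.nu r := by
  have z : c.nu c.R1 = 0 := nu_zero ⟨by linarith [h.rpR], le_rfl⟩
  rcases le_total r c.R1 with k | k
  · exact z ▸ h.nu_anti ⟨hr, k⟩ ⟨h.lt, le_rfl⟩ k
  · exact z ▸ h.nu_mono self_mem_Ici k k

theorem Ok.nu_top : Tendsto c.nu (𝓝[>] c.r1) atTop := by
  have c1 : Tendsto (fun r => smoothTransition (rp c.M c.a - r)) (𝓝[>] c.r1) (𝓝 _) :=
    ((smoothTransition.continuous.comp (continuous_const.sub continuous_id)).tendsto
      c.r1).mono_left nhdsWithin_le_nhds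
  have c2 : Tendsto (fun r => r - c.r1) (𝓝[>] c.r1) (𝓝[>] 0) := tendsto_nhdsWithin_iff.2
    ⟨((continuous_sub_right c.r1).tendsto' _ _ (sub_self _)).mono_left nhdsWithin_le_nhds,
      eventually_mem_nhdsWithin.mono fun _ k => mem_Ioi.2 (sub_pos.2 k)⟩
  refine (c1.pos_mul_atTop (smoothTransition.pos_of_pos (sub_pos.2 h.r1.2))
    (tendsto_inv_nhdsGT_zero.comp c2)).congr' ?_
  filter_upwards [nhdsWithin_le_nhds (Iio_mem_nhds h.lt)] with r k
  rw [nu_in (le_of_lt k), div_eq_mul_inv]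
  rfl

theorem Ok.nu_far : ∃ b, ∀ r ≥ c.R1 + 1,
    c.nu r - c.H r = 3 / 2 * r - P354XA.psi c.M c.a r + b := by
  refine ⟨_, fun r hr => sub_eq_iff_eq_add'.1 (const_of
    (f := fun r => c.nu r - c.H r - (3 / 2 * r - P354XA.psi c.M c.a r)) (fun x hx => ?_) hr)⟩
  have k : rp c.M c.a < x := by linarith [h.rpR]
  refine (((h.nu_d (h.r1.2.trans k)).sub (h.sm.differentiable (by simp) x).hasDerivAt).sub
    (((hasDerivAt_id x).const_mul _).sub (P354XA.psi_deriv h.sub k))).congr_deriv ?_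
  rw [n1_zero k.le, n2, smoothTransition.one_of_one_le (by linarith),
    lo1_eq (Del_pos h.sub k).ne']
  ring

end Pm

end Vale.Agent.P354YT
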