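import Vale.Agent.P354YT.Chart

/-!
The inverse of the chart, and the lines of X.
-/

open scoped ContDiff
open Set Filter Topology

noncomputable section

namespace Vale.Agent.P354YT

open Vale.Agent.P354n (R4)
open Vale.Agent.P354I (rm rp)
open Vale.Agent.P354XE
open Vale.Agent.P354XA (hor lo1 ip rd_cd rd_fd rd_cont dr_eq rd_sq rd_nonneg ur_eq)

variable {p q v : R4}

theorem fence {f : ℝ → ℝ} {b s : ℝ} (hf : Differentiable ℝ f) (h : ∀ s, f s = b → 0 < deriv f s)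
    (h0 : b ≤ f 0) (hs : 0 < s) : b < f s := by
  have k : ∀ x ∈ Icc 0 s, b ≤ f x := image_le_of_deriv_right_lt_deriv_boundary
    (f := fun _ => b) (f' := fun _ => 0) continuousOn_const
    (fun x _ => (hasDerivAt_const x b).hasDerivWithinAt) h0 (fun x => (hf x).hasDerivAt)
    fun x _ e => h x e.symm
  refine (k s ⟨hs.le, le_rfl⟩).lt_of_ne fun e => ?_
  have k1 := ((hasDerivAt_iff_tendsto_slope.1 (hf s).hasDerivAt).mono_left
    (nhdsLT_le_nhdsNE s)).eventually (lt_mem_nhds (h s e.symm))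
  obtain ⟨x, k2, k3⟩ := (k1.and (Ioo_mem_nhdsLT hs)).exists
  rw [slope_def_field, lt_div_iff_of_neg (sub_neg.2 k3.2), zero_mul] at k2
  linarith [k x ⟨k3.1.le, k3.2.le⟩]

theorem P0_pos (hq : q ∈ P0) : 0 < rd q := norm_pos_iff.2 hq
theorem open_P0 : IsOpen P0 :=
  (congrArg IsOpen (Set.ext fun _ => norm_pos_iff)).mp (isOpen_lt continuous_const rd_cont)
theorem xs_sh (q : R4) (s : ℝ) : xs (q + s • eT) = xs q := by simp [xs, eT]
theorem rd_sh (q : R4) (s : ℝ) : rd (q + s • eT) = rd q := by rw [rd, xs_sh, rd]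
theorem P0_sh (hq : q ∈ P0) (s : ℝ) : q + s • eT ∈ P0 := fun e => hq ((xs_sh q s).symm.trans e)

theorem kap_cont {M a : ℝ} (h : |a| < M) (hp : rm M a < rd p) :
    ContinuousAt (fun p => (kap M a p).1) p ∧ (rd p ≤ rp M a → 0 < (kap M a p).1) := by
  obtain ⟨-, k1, k2, -⟩ := hor h
  have cm : Continuous fun p : R4 => mf M a (rd p) * Real.exp (ka M a * p.1) :=
    ((rd_cont.sub continuous_const).rpow_const fun _ =>
      Or.inr (div_nonneg k1 (by linarith))).mul (by fun_prop)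
  have m0 : 0 < mf M a (rd p) * Real.exp (ka M a * p.1) :=
    mul_pos (Real.rpow_pos_of_pos (sub_pos.2 hp) _) (Real.exp_pos _)
  exact ⟨(((rd_cont.sub continuous_const).neg.continuousAt.div cm.continuousAt m0.ne').add
    cm.continuousAt).div_const 2, fun k => half_pos (add_pos_of_nonneg_of_pos
      (div_nonneg (by linarith) m0.le) m0)⟩

namespace Pm

variable {c : Pm} (h : c.Ok) {Φ : R4 → R4}

variable (c Φ) in
/-- Φ is a smooth inverse of the chart. -/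
structure Inv : Prop where
  sm : ∀ q ∈ P0, ContDiffAt ℝ ∞ Φ q
  map : MapsTo Φ P0 c.D
  left : ∀ p ∈ c.D, Φ (c.Psi p) = p
  right : ∀ q ∈ P0, c.Psi (Φ q) = q

include h

theorem Ok.Psi_map : MapsTo c.Psi c.D P0 := fun _ hp =>
  norm_pos_iff.1 ((Real.exp_pos _).trans_eq (h.rd_Psi hp).symm)

theorem Ok.ex_inv : ∃ Φ, c.Inv Φ := by
  obtain ⟨Q, q1, q2, q3⟩ := h.pl.inv
  have e : ∀ q ∈ P0, rd (pol (Q (q.1, Real.log (rd q))).1 ((Q (q.1, Real.log (rd q))).2 / rd q)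
      (c.J (Q (q.1, Real.log (rd q))).2) q) = (Q (q.1, Real.log (rd q))).2 := fun q hq => by
    rw [rd_pol _ _ _ (div_pos (h.r10.trans (q2 _).1) (P0_pos hq)).le,
      div_mul_cancel₀ _ (P0_pos hq).ne']
  refine ⟨fun q => pol (Q (q.1, Real.log (rd q))).1 ((Q (q.1, Real.log (rd q))).2 / rd q)
    (c.J (Q (q.1, Real.log (rd q))).2) q, fun q hq => ?_, fun q hq => ?_, fun p hp => ?_,
    fun q hq => ?_⟩
  · have r0 := (P0_pos hq).ne'
    have k := q1.contDiffAt.comp q (contDiffAt_fst.prodMk ((rd_cd r0).log r0))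
    exact pol_cd k.fst (k.snd.div (rd_cd r0) r0) (h.J_cd.1.contDiffAt.comp q k.snd)
  · exact (q2 _).1.trans_eq (e q hq).symm
  · simp only [← h.P2_eq hp, q3 (p.1, rd p) hp]
    exact h.back hp
  · obtain ⟨e1, e2⟩ := Prod.mk.inj (q2 (q.1, Real.log (rd q))).2
    have r0 := P0_pos hq
    have r1 := (h.r10.trans (q2 (q.1, Real.log (rd q))).1).ne'
    rw [Psi, tau_eq, lab]
    simp only [e q hq]
    rw [show ∀ t m c q, (pol t m c q).1 = t from fun _ _ _ _ => rfl, e1, e2, pol_pol,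
      neg_add_cancel, Real.exp_log r0, div_mul_div_cancel₀ r1, div_self r0.ne', pol_id]

variable (i : c.Inv Φ)
include i

theorem Ok.line (hq : q ∈ P0) : fderiv ℝ Φ q eT = (c.lam (Φ q))⁻¹ • c.X (Φ q) := by
  have hp := i.map hq
  obtain ⟨c0, h0, k⟩ := h.lam_pos
  have d1 := ((h.Psi_cd hp).differentiableAt (by simp)).hasFDerivAt
  have d2 := ((i.sm q hq).differentiableAt (by simp)).hasFDerivAt
  have e := DFunLike.congr_fun ((HasFDerivAt.comp (Φ q) ((i.right q hq).symm ▸ d2) d1).unique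
    ((hasFDerivAt_id _).congr_of_eventuallyEq (eventually_of_mem (c.open_D.mem_nhds hp)
      i.left))) (c.X (Φ q))
  rw [ContinuousLinearMap.comp_apply, h.str hp, map_smul, i.right q hq] at e
  exact (eq_inv_smul_iff₀ (h0.trans_le (k _ hp)).ne').2 e

theorem Ok.ga_d (hq : q ∈ P0) (s : ℝ) : HasDerivAt (fun s : ℝ => Φ (q + s • eT))
    ((c.lam (Φ (q + s • eT)))⁻¹ • c.X (Φ (q + s • eT))) s := by
  have d := ((i.sm _ (P0_sh hq s)).differentiableAt (by simp)).hasFDerivAt.comp_hasDerivAt s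
    (((hasDerivAt_id s).smul_const eT).const_add q)
  rwa [one_smul, h.line i (P0_sh hq s)] at d

theorem Ok.ga_f (hq : q ∈ P0) (s : ℝ) {f : R4 → ℝ} (hf : DifferentiableAt ℝ f (Φ (q + s • eT))) :
    ∃ l > 0, HasDerivAt (fun s : ℝ => f (Φ (q + s • eT)))
      (l * fderiv ℝ f (Φ (q + s • eT)) (c.X (Φ (q + s • eT)))) s := by
  obtain ⟨c0, h0, k⟩ := h.lam_pos
  have d := hf.hasFDerivAt.comp_hasDerivAt s (h.ga_d i hq s)
  rw [map_smul] at d
  exact ⟨_, inv_pos.2 (h0.trans_le (k _ (i.map (P0_sh hq s)))), d⟩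

theorem Ok.ga_h (hq : q ∈ P0) (s : ℝ) {f : ℝ × ℝ → ℝ} {A B : ℝ}
    (hf : H2 f ((Φ (q + s • eT)).1, rd (Φ (q + s • eT))) A B) :
    ∃ l > 0, HasDerivAt (fun s : ℝ => f ((Φ (q + s • eT)).1, rd (Φ (q + s • eT))))
      (l * (A * c.aa (rd (Φ (q + s • eT))) + B * c.rr (rd (Φ (q + s • eT))))) s := by
  have r0 := (h.pos (i.map (P0_sh hq s))).ne'
  obtain ⟨l, l0, d⟩ := h.ga_f i hq s (hf.fd r0).1
  rw [(hf.fd r0).2, X_fst, X_dr c r0] at d
  exact ⟨l, l0, d⟩

theorem Ok.lab_eq (hq : q ∈ P0) : c.lab (Φ q) = Real.log (rd q) := by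
  rw [← Real.log_exp (c.lab _), ← h.rd_Psi (i.map hq), i.right q hq]

theorem Ok.side (hq : q ∈ P0) :
    (1 < rd q ↔ c.R1 < rd (Φ q)) ∧ (rd q < 1 ↔ rd (Φ q) < c.R1) := by
  have e := Real.exp_pos (-(c.k * (Φ q).1))
  rw [← Real.log_pos_iff (rd_nonneg q), ← Real.log_neg_iff (P0_pos hq), ← h.lab_eq i hq, lab,
    mul_pos_iff_of_pos_right e, ← neg_pos, ← neg_mul, mul_pos_iff_of_pos_right e, neg_pos,
    ← h.F_zero]
  exact ⟨h.pl.mono.lt_iff_lt, h.pl.mono.lt_iff_lt⟩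

theorem Ok.rad (hq : q ∈ P0) : Monotone fun s : ℝ => |rd (Φ (q + s • eT)) - c.R1| := by
  have d := fun s => h.ga_h i hq s (H2.rad (((hasDerivAt_id _).sub_const c.R1).pow 2))
  refine fun s t k => sq_le_sq.1 (monotone_of_deriv_nonneg
    (f := fun s : ℝ => (rd (Φ (q + s • eT)) - c.R1) ^ 2)
    (fun s => (d s).choose_spec.2.differentiableAt) (fun s => ?_) k)
  obtain ⟨l, l0, d⟩ := d s
  rw [show deriv (fun s : ℝ => (rd (Φ (q + s • eT)) - c.R1) ^ 2) s = _ from d.deriv]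
  refine mul_nonneg l0.le ?_
  simp only [zero_mul, zero_add, id]
  rcases le_total c.R1 (rd (Φ (q + s • eT))) with k | k
  · have := (h.rr_sign _).1 k
    have := sub_nonneg.2 k
    positivity
  · have := mul_nonneg_of_nonpos_of_nonpos (sub_nonpos.2 k) ((h.rr_sign _).2 k)
    norm_num
    linarith

theorem Ok.smono (hq : q ∈ P0) {f f' : ℝ → ℝ} (hf : ∀ r, HasDerivAt f (f' r) r)
    (k : ∀ r > c.r1, 0 < c.aa r - f' r * c.rr r) :
    StrictMono fun s : ℝ => (Φ (q + s • eT)).1 - f (rd (Φ (q + s • eT))) :=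
  strictMono_of_deriv_pos fun s => by
    obtain ⟨l, l0, d⟩ := h.ga_h i hq s (H2.tim (hf _))
    rw [show deriv (fun s : ℝ => (Φ (q + s • eT)).1 - f (rd (Φ (q + s • eT)))) s = _ from d.deriv]
    exact mul_pos l0 (by linarith [k _ (i.map (P0_sh hq s))])

theorem Ok.t_mono (hq : q ∈ P0) : StrictMono fun s : ℝ => (Φ (q + s • eT)).1 := by
  simpa using h.smono i hq (fun r => hasDerivAt_const r 0) fun r _ => by simpa using h.aa_pos r

omit h in
theorem tau_ga (hq : q ∈ P0) (s : ℝ) : c.tau (Φ (q + s • eT)) = q.1 + s :=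
  (congrArg Prod.fst (i.right _ (P0_sh hq s))).trans (by simp [eT])

theorem Ok.t_bot (hq : q ∈ P0) : Tendsto (fun s : ℝ => (Φ (q + s • eT)).1) atBot atBot := by
  obtain ⟨C, hC⟩ := h.tau_ge
  refine tendsto_atBot_mono (fun s => ?_) (tendsto_atBot_add_const_right _ (q.1 + C) tendsto_id)
  linarith [(hC _ (i.map (P0_sh hq s))).1, tau_ga i hq s, id_eq s]

theorem Ok.r_bot (hq : q ∈ P0) : Tendsto (fun s : ℝ => rd (Φ (q + s • eT))) atBot (𝓝 c.R1) := by
  have k := (Real.tendsto_exp_atBot.comp ((h.t_bot i hq).const_mul_atBot h.k0)).const_mul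
    (Real.log (rd q))
  rw [mul_zero, ← h.F_zero] at k
  have k2 := (h.pl.Fi_cd c.R1).continuousAt.tendsto.comp k
  rw [h.pl.Fi] at k2
  refine k2.congr fun s => ?_
  rw [← h.pl.Fi (rd (Φ _)), Pl.lab (F := c.F) (k := c.k) (Φ (q + s • eT)).1, ← rd_sh q s,
    ← h.lab_eq i (P0_sh hq s)]
  rfl

theorem Ok.out_le (hq : q ∈ P0) (k : c.R1 < rd (Φ q)) {s : ℝ} (hs : 0 ≤ s) :
    rd (Φ q) ≤ rd (Φ (q + s • eT)) := by
  have k1 := (h.side i (P0_sh hq s)).1.1 (by rw [rd_sh]; exact (h.side i hq).1.2 k)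
  have k2 := h.rad i hq hs
  simp only [zero_smul, add_zero, abs_of_pos (sub_pos.2 k), abs_of_pos (sub_pos.2 k1)] at k2
  linarith

theorem Ok.in_le (hq : q ∈ P0) (k : rd (Φ q) < c.R1) {s : ℝ} (hs : 0 ≤ s) :
    rd (Φ (q + s • eT)) ≤ rd (Φ q) := by
  have k1 := (h.side i (P0_sh hq s)).2.1 (by rw [rd_sh]; exact (h.side i hq).2.2 k)
  have k2 := h.rad i hq hs
  simp only [zero_smul, add_zero, abs_of_neg (sub_neg.2 k), abs_of_neg (sub_neg.2 k1)] at k2
  linarith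

theorem Ok.ret (hq : q ∈ P0) (k : c.R1 + 1 / 2 ≤ rd (Φ q)) {s : ℝ} (hs : 0 ≤ s) :
    ur c.M c.a (Φ (q + s • eT)) = ur c.M c.a (Φ q) := by
  have := const_of (f := fun s : ℝ => (Φ (q + s • eT)).1 -
    P354XA.psi c.M c.a (rd (Φ (q + s • eT)))) (fun x hx => by
      have k1 := k.trans (h.out_le i hq (by linarith) hx)
      have k2 : rp c.M c.a < rd (Φ (q + x • eT)) := by linarith [h.rpR]
      obtain ⟨l, -, d⟩ := h.ga_h i hq x (H2.tim (P354XA.psi_deriv h.sub k2))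
      refine d.congr_deriv ?_
      rw [(h.out_eq k1).1, (h.out_eq k1).2, lo1_eq (Del_pos h.sub k2).ne']
      ring) hs
  simpa only [ur_eq, zero_smul, add_zero] using this

theorem Ok.up {θ : ℝ} (hq : q ∈ P0) (k : Φ q ∈ En c.M c.a c.r1 θ) {s : ℝ} (hs : 0 < s) :
    Φ (q + s • eT) ∈ interior (En c.M c.a c.r1 θ) := by
  have hp := i.map (P0_sh hq s)
  obtain ⟨c1, c2⟩ := kap_cont h.sub (h.r1.1.trans hp)
  have t1 : (Φ q).1 < (Φ (q + s • eT)).1 := by simpa using h.t_mono i hq hs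
  have e1 : ∀ᶠ p in 𝓝 (Φ (q + s • eT)), θ < Real.exp (ka c.M c.a * p.1) :=
    continuousAt_const.eventually_lt (by fun_prop) (k.2.1.trans_lt (Real.exp_lt_exp.2
      (mul_lt_mul_of_pos_left t1 (hor h.sub).2.2.2.2.1)))
  refine mem_interior_iff_mem_nhds.2 ?_
  rcases le_or_gt (rd (Φ (q + s • eT))) (rp c.M c.a) with k1 | k1
  · filter_upwards [c.open_D.mem_nhds hp, e1, continuousAt_const.eventually_lt c1 (c2 k1)]
      with p a1 a2 a3 using ⟨a1, a2.le, a3.le⟩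
  have k2 : ∀ x ∈ Icc 0 s, rp c.M c.a < rd (Φ (q + x • eT)) := fun x hx => by
    by_contra! k3
    have := h.in_le i (P0_sh hq x) (by linarith [h.rpR]) (sub_nonneg.2 hx.2)
    rw [add_assoc, ← add_smul, add_sub_cancel] at this
    linarith
  have d := fun x (hx : x ∈ Icc 0 s) => h.ga_h i hq x (H2.tim (tb_d h.sub (k2 x hx)))
  have k4 := strictMonoOn_of_deriv_pos (convex_Icc 0 s)
    (fun x hx => (d x hx).choose_spec.2.continuousAt.continuousWithinAt) (fun x hx => by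
      obtain ⟨l, l0, d⟩ := d x (interior_subset hx)
      have q0 := qm_pos h.sub (k2 x (interior_subset hx))
      have q1 := h.X_pos (r := rd (Φ (q + x • eT)))
        (σ := qm c.M c.a (rd (Φ (q + x • eT)))) (by linarith) fun _ => by linarith
      rw [d.deriv]
      exact mul_pos l0 (by linarith))
    ⟨le_rfl, hs.le⟩ ⟨hs.le, le_rfl⟩ hs
  have k5 := k2 0 ⟨le_rfl, hs.le⟩
  simp only [zero_smul, add_zero] at k4 k5
  have k6 := ((h.En_iff θ _).1 k).2.2 k5
  filter_upwards [c.open_D.mem_nhds hp, e1, ((tb_d h.sub k1).continuousAt.comp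
    rd_cont.continuousAt).eventually_lt continuousAt_fst (show tb c.M c.a _ < _ by linarith)]
    with p a1 a2 a3 using (h.En_iff θ p).2 ⟨a1, a2.le, fun _ => a3.le⟩

theorem Ok.col {b : ℝ} (hb : b ∈ Icc (-2 : ℝ) 1) (hq : q ∈ P0) (k : b ≤ c.psi (Φ q)) {s : ℝ}
    (hs : 0 < s) : b < c.psi (Φ (q + s • eT)) := by
  have d := fun s => h.ga_f i hq s
    ((h.psi_cd (h.pos (i.map (P0_sh hq s)))).differentiableAt (by simp))
  refine fence (f := fun s : ℝ => c.psi (Φ (q + s • eT)))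
    (fun s => (d s).choose_spec.2.differentiableAt) (fun s e => ?_) (by simpa using k) hs
  obtain ⟨l, l0, d⟩ := d s
  rw [d.deriv]
  exact mul_pos l0 (h.X_psi (h.pos (i.map (P0_sh hq s))) (e.symm ▸ hb))

theorem Ok.exit (hq : q ∈ P0) : Tendsto (fun s : ℝ => c.psi (Φ (q + s • eT))) atBot atBot := by
  have r0 := mul_pos h.del.1 (h.r10.trans h.lt)
  refine tendsto_atBot_add_const_right _ (-2) (Tendsto.atBot_mul_pos (inv_pos.2 r0)
    ((h.t_bot i hq).atBot_add ((h.be_cd.continuous.tendsto _).comp (h.r_bot i hq)).neg)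
    (((h.r_bot i hq).const_mul c.del).inv₀ r0.ne'))

theorem Ok.strI : Str c Φ where
  Psi_sm _ hp := (h.Psi_cd hp).contDiffWithinAt
  Phi_sm q hq := (i.sm q hq).contDiffWithinAt
  Psi_map := h.Psi_map
  Phi_map := i.map
  left := i.left
  right := i.right
  str _ := h.str
  line _ := h.line i
  side _ := h.side i
  rad _ := h.rad i
  time _ hq := ⟨h.t_mono i hq, h.smono i hq h.H_d fun _ k => h.Xq_pos k.le, h.t_bot i hq,
    h.r_bot i hq⟩
  ret _ hq k _ := h.ret i hq k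
  up _ _ hq k _ := h.up i hq k
  col _ hb _ hq k _ := h.col i hb hq k
  exit _ := h.exit i

omit i in
theorem Ok.ex_str : ∃ Φ, Str c Φ := let ⟨Φ, i⟩ := h.ex_inv; ⟨Φ, h.strI i⟩

end Pm

end Vale.Agent.P354YT
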