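import Vale.Agent.P354YT.Mar
import Vale.Agent.P354YT.Line
import Vale.Agent.P354YR.Met

/-!
The proof of TAU.
-/

open scoped ContDiff
open Set Filter Topology

noncomputable section

namespace Vale.Agent.P354YT

open Vale.Agent.P354n (R4)
open Vale.Agent.P354I (rm rp rnd Sg)
open Vale.Agent.P354R (Del)
open Vale.Agent.P354XE
open Vale.Agent.P354XA
open Vale.Agent.P354YR (XI)
open Vale.Agent.P354XV (Spl)
open Real (smoothTransition)

variable {p v : R4}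

theorem gin_vec (M a : ℝ) (h : rd p ≠ 0) (A B C : ℝ) : ∃ s, Sg a (rd p) (xs p) =
    rd p ^ 2 + a ^ 2 * (1 - s) ∧ gin M a p ((A, (B / rd p) • p.2) + C • Om 2 p)
      ((A, (B / rd p) • p.2) + C • Om 2 p) = -A ^ 2 + B ^ 2 - 2 * a * B * C * s +
        Sg a (rd p) (xs p) * C ^ 2 * s + a ^ 2 * C ^ 2 * s ^ 2 +
        2 * M * rd p / Sg a (rd p) (xs p) * (A + B - a * C * s) ^ 2 := by
  have k := rd_sq p
  refine ⟨1 - p.2.2.2 ^ 2 / rd p ^ 2, by rw [Sg_eq]; ring, ?_⟩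
  generalize hv : (A, (B / rd p) • p.2) + C • Om 2 p = v
  have e1 : dr p v = B := by
    rw [← hv, (dr_lin p).map_add, (dr_lin p).map_smul, dr_Om, dr_rad h, smul_zero, add_zero]
  have e2 : dq p v = C * (1 - p.2.2.2 ^ 2 / rd p ^ 2) := by
    rw [← hv, dq_eq]
    simp [Om, ip] at k ⊢
    field_simp
    linear_combination (-C * rd p) * k
  have e3 : rnd (xs p) (xs v) (xs v) = C ^ 2 * (1 - p.2.2.2 ^ 2 / rd p ^ 2) := by
    have e := ip_split h v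
    rw [e1, ← hv] at e
    rw [← hv]
    simp [Om, ip] at k e ⊢
    field_simp at e ⊢
    refine mul_left_cancel₀ (pow_ne_zero 2 h) ?_
    linear_combination (-1 : ℝ) * e - (B ^ 2 + C ^ 2 * rd p ^ 2) * k
  have e4 : v.1 = A := by rw [← hv]; simp [Om]
  rw [gin, kf, e1, e2, e3, e4]
  ring

namespace Pm

variable {c : Pm} (h : c.Ok) {r : ℝ}
include h

theorem Ok.X_cau (hp : p ∈ c.D) : gin c.M c.a p (c.X p) (c.X p) ≤ 0 := by
  have r0 := h.pos hp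
  obtain ⟨s, e1, e2⟩ := gin_vec c.M c.a r0.ne' (c.aa (rd p)) (c.rr (rd p)) (c.om (rd p))
  rw [X_eq, e2, aa, rr, om, ← rt_mul]
  rcases le_or_gt (c.xi (rd p)) (-(1 / 2)) with k | k
  · obtain ⟨a1, a2, a3⟩ := al_in k
    rw [a1, a2, a3]
    norm_num
  have k1 := h.big k
  have D0 := Del_pos h.sub (rp_lt h.sub k1)
  have s1 := Sg_ge c.a p
  have s2 := Sg_le c.a p
  have S0 : 0 < Sg c.a (rd p) (xs p) := lt_of_lt_of_le (by positivity) s1
  have b1 : Sg c.a (rd p) (xs p) / Del c.M c.a (rd p) ≤ 5 / 4 := by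
    rw [div_le_iff₀ D0]
    nlinarith [qm_mul D0.ne', qm_le h.sub k1]
  have b2 : 2 * c.M * rd p / Sg c.a (rd p) (xs p) ≤ 1 / 5 := by
    rw [div_le_iff₀ S0]; nlinarith
  have b3 := div_pos S0 D0
  generalize c.xi (rd p) = x at *
  have e : ∀ u P N : ℝ, -(u + P * lo1 c.M c.a (rd p) + N) ^ 2 + (P - N) ^ 2 -
      2 * c.a * (P - N) * (P * (2 * c.a / Del c.M c.a (rd p))) * s +
      Sg c.a (rd p) (xs p) * (P * (2 * c.a / Del c.M c.a (rd p))) ^ 2 * s +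
      c.a ^ 2 * (P * (2 * c.a / Del c.M c.a (rd p))) ^ 2 * s ^ 2 +
      2 * c.M * rd p / Sg c.a (rd p) (xs p) * (u + P * lo1 c.M c.a (rd p) + N + (P - N) -
        c.a * (P * (2 * c.a / Del c.M c.a (rd p))) * s) ^ 2 =
      -((1 - 2 * c.M * rd p / Sg c.a (rd p) (xs p)) * u ^ 2 + 2 * u * (P + N) +
        4 * (Sg c.a (rd p) (xs p) / Del c.M c.a (rd p)) * (P * N)) := fun u P N => by
    have e3 : 2 * c.M * rd p = rd p ^ 2 + c.a ^ 2 - Del c.M c.a (rd p) := by unfold Del; ring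
    rw [lo1, e3]
    generalize Sg c.a (rd p) (xs p) = S at *
    generalize Del c.M c.a (rd p) = D at *
    field_simp
    rw [e1]
    ring
  rw [e, neg_nonpos]
  generalize Sg c.a (rd p) (xs p) / Del c.M c.a (rd p) = E at *
  generalize 2 * c.M * rd p / Sg c.a (rd p) (xs p) = F at *
  obtain ⟨a1, a2⟩ := abs_le.1 (al_x x)
  have a3 := al_nonneg x
  have a4 := (sg_mem x).1
  have a5 := (sg_mem (-x)).1
  simp only [bp, al_neg, mul_neg]
  generalize al x * x = w at *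
  generalize al x = u at *
  generalize sg x = P at *
  generalize sg (-x) = N at *
  have c1 : -(u ^ 2 / 16 + u * (P + N) / 4) ≤ (w / 2 + P) * (-w / 2 + N) := by
    nlinarith [mul_nonneg a4 a5, mul_nonneg (sub_nonneg.2 a1) (sub_nonneg.2 a2),
      mul_nonneg (sub_nonneg.2 a1) a5, mul_nonneg (sub_nonneg.2 a2) a4]
  have c2 : 0 ≤ u * (P + N) := by positivity
  nlinarith [mul_le_mul_of_nonneg_left c1 b3.le, mul_le_mul_of_nonneg_right b1
    (show 0 ≤ u ^ 2 / 16 + u * (P + N) / 4 by positivity), mul_le_mul_of_nonneg_right b2 (sq_nonneg u),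
    sq_nonneg u]

theorem Ok.tmf (hp : p ∈ c.D) : Tm (gin c.M c.a) (XI c.M c.a) c.tau p := by
  have r0 := h.pos hp
  refine ⟨(h.tau_cd hp).of_le (by simp), ?_, fun v v0 e => ?_⟩
  · obtain ⟨μ, -, N, k⟩ := h.adm (c.tA (p.1, rd p))
    have k1 := (k (p.1, rd p) hp le_rfl 0 ⟨le_rfl, by norm_num⟩ fun _ => rfl).1
    have e : dr p (XI c.M c.a p) = -(2 * c.M) * rd p := by
      rw [← dr_rad r0.ne' (Sg c.a (rd p) (xs p) + 2 * c.M * rd p) (-(2 * c.M) * rd p),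
        mul_div_cancel_right₀ _ r0.ne', XI]
    have S0 : 0 < Sg c.a (rd p) (xs p) := lt_of_lt_of_le (by positivity) (Sg_ge c.a p)
    rw [h.tau_fd hp, e, XI]
    linarith [mul_pos (one_pos.trans_le (h.tA_ge (p.1, rd p))) S0, mul_pos k1 (mul_pos h.M0 r0)]
  · obtain ⟨c0, h0, k⟩ := h.margin (c.G (rd p) * deriv c.W (ur c.M c.a p))
    exact lt_of_lt_of_le (mul_pos h0 (pow_pos (norm_pos_iff.2 v0) 2))
      (k p hp le_rfl 0 ⟨le_rfl, by norm_num⟩ (fun _ => rfl) v (by simpa using e))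

theorem Ok.band : ∃ B, ∀ p ∈ c.D, c.psi p ≤ 1 → c.G (rd p) * deriv c.W (ur c.M c.a p) ≤ B := by
  have s0 : 0 ≤ (c.s - 1) / 4 := by linarith [h.s]
  have b0 : rp c.M c.a < c.Rb + 1 := rp_lt h.sub (by linarith [h.Rb])
  refine ⟨(c.s - 1) / 4 * max 3 (max (c.Rb + 1) (5 * |tb c.M c.a (c.Rb + 1)|)),
    fun p hp k => ?_⟩
  have r0 := h.pos hp
  obtain ⟨-, u1, u2⟩ := h.uw_le (ur c.M c.a p)
  refine (mul_le_mul (h.G_le' r0.le) ((h.W_le _).trans (mul_le_mul_of_nonneg_left u1 s0))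
    (h.W_pos _).le r0.le).trans ?_
  rw [mul_left_comm]
  refine mul_le_mul_of_nonneg_left ?_ s0
  rcases le_total (rd p) (max (c.Rb + 1) (5 * |tb c.M c.a (c.Rb + 1)|)) with k1 | k1
  · exact (mul_le_of_le_one_right r0.le u2).trans (k1.trans (le_max_right _ _))
  obtain ⟨k2, k3⟩ := max_le_iff.1 k1
  have k4 := (h.psi_lt r0 (3 / 2)).1 (by linarith)
  have k5 := h.tb_mono b0 (b0.trans_le k2) k2
  have k6 : rd p / 3 ≤ -ur c.M c.a p := by
    rw [ur_eq, psi_tb]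
    rw [h.be_far k2] at k4
    nlinarith [h.del.2, neg_abs_le (tb c.M c.a (c.Rb + 1))]
  have k7 : rd p / 3 ≤ √(1 + ur c.M c.a p ^ 2) := Real.le_sqrt_of_sq_le (by nlinarith)
  refine le_trans ?_ (le_max_left _ _)
  rw [← div_eq_mul_inv, div_le_iff₀ (by positivity)]
  linarith

theorem Ok.psi_adm (hp : p ∈ c.D) (k : c.psi p ∈ Icc (-2 : ℝ) 1) : 0 < 1 / (1 + c.sl p) ∧
    1 / (1 + c.sl p) ≤ 1 ∧ 1 / 4 * rd p ^ 2 ≤ mm c.M c.a (rd p) (1 / (1 + c.sl p)) := by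
  obtain ⟨s0, s1⟩ := h.sl_mem k
  have y0 : 5 / 8 ≤ 1 / (1 + c.sl p) := by rw [le_div_iff₀ (by linarith)]; linarith
  have y1 : 1 / (1 + c.sl p) ≤ 1 := div_le_one_of_le₀ (by linarith) (by linarith)
  refine ⟨by linarith, y1, ?_⟩
  generalize 1 / (1 + c.sl p) = y at *
  have a1 : c.a ^ 2 ≤ 2 * c.M * rd p := by
    have e := (hor h.sub).2.2.2.2.2.1 (rm c.M c.a)
    rw [sub_self, mul_zero, Del] at e
    nlinarith [mul_lt_mul_of_pos_left (h.r1.1.trans hp) h.M0, sq_nonneg (rm c.M c.a)]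
  have a2 : (1 - y) ^ 2 ≤ 1 := by nlinarith
  unfold mm Del
  nlinarith [mul_le_mul_of_nonneg_left a2 (sq_nonneg c.a),
    mul_le_mul_of_nonneg_right y0 (sq_nonneg (rd p))]

theorem Ok.top : ∃ c0 > 0, ∀ (g : Tw), ∀ p ∈ c.D, c.psi p ∈ Icc (-2 : ℝ) 1 →
    (∀ v, |g p v v - gin c.M c.a p v v| ≤ c0 * ‖v‖ ^ 2) → Spl g c.tau p ∧ Spl g c.psi p ∧
      ∀ v, g p v v ≤ 0 → 0 < fderiv ℝ c.tau p v → 0 < fderiv ℝ c.psi p v := by
  obtain ⟨B, hB⟩ := h.band
  obtain ⟨μ, μ0, N, k⟩ := h.adm (1 + B)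
  obtain ⟨c0, h0, k2⟩ := gin_ge (max N 1) (lt_min μ0 (show (0 : ℝ) < 1 / 4 by norm_num))
    (show 0 ≤ c.a ^ 2 / c.r1 ^ 2 by positivity)
  refine ⟨c0 / 2, by positivity, fun g p hp hb hg => ?_⟩
  obtain ⟨a1, a2, a3⟩ := k (p.1, rd p) hp (by
    have := hB p hp hb.2
    rw [ur_eq] at this
    exact add_le_add le_rfl this) 0 ⟨le_rfl, by norm_num⟩ fun _ => rfl
  obtain ⟨b1, b2, b3⟩ := h.psi_adm hp hb
  have a0 := div_pos (one_pos.trans_le (h.tA_ge (p.1, rd p))) a1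
  have s0 : 0 < 1 + c.sl p := by linarith [(h.sl_mem hb).1]
  have d0 := mul_pos h.del.1 (h.pos hp)
  have e1 : ∀ v, fderiv ℝ c.tau p v = (c.tA (p.1, rd p) - c.tR (p.1, rd p) - 0) *
      (c.tA (p.1, rd p) / (c.tA (p.1, rd p) - c.tR (p.1, rd p) - 0) * (v.1 + dr p v) - dr p v) :=
    fun v => by rw [h.tau_fd hp, mul_sub, ← mul_assoc, mul_div_cancel₀ _ a1.ne']; ring
  have e2 : ∀ v, fderiv ℝ c.psi p v = (1 + c.sl p) / (c.del * rd p) *
      (1 / (1 + c.sl p) * (v.1 + dr p v) - dr p v) := fun v => by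
    rw [h.psi_fd (h.pos hp)]; field_simp; ring
  have d1 := div_pos s0 d0
  generalize c.tA (p.1, rd p) / _ = y1 at *
  generalize 1 / (1 + c.sl p) = y2 at *
  have m1 := (mul_le_mul_of_nonneg_right (min_le_left μ (1 / 4)) (sq_nonneg _)).trans a3
  have m2 := (mul_le_mul_of_nonneg_right (min_le_right μ (1 / 4)) (sq_nonneg _)).trans b3
  have key : ∀ v ≠ 0, ∀ y, (y1 ≤ y ∧ y ≤ y2 ∨ y2 ≤ y ∧ y ≤ y1) →
      dr p v = y * (v.1 + dr p v) → 0 < g p v v := fun v v0 y hy e => by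
    have := k2 _ _ p v y (h.pos hp) (h.rho hp) (by
      rcases hy with hy | hy
      · exact (abs_of_pos (a0.trans_le hy.1)).trans_le (hy.2.trans (b2.trans (le_max_right _ _)))
      · exact (abs_of_pos (b1.trans_le hy.1)).trans_le (hy.2.trans (a2.trans (le_max_left _ _))))
      (hy.elim (fun k => mm_cvx m1 m2 k.1 k.2) fun k => mm_cvx m2 m1 k.1 k.2) e
    linarith [(abs_le.1 (hg v)).1, mul_pos h0 (pow_pos (norm_pos_iff.2 v0) 2)]
  refine ⟨fun v v0 e => key v v0 y1 ((le_total y1 y2).imp (⟨le_rfl, ·⟩) (⟨·, le_rfl⟩)) ?_,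
    fun v v0 e => key v v0 y2 ((le_total y1 y2).imp (⟨·, le_rfl⟩) (⟨le_rfl, ·⟩)) ?_,
    fun v l1 l2 => not_le.1 fun l3 => ?_⟩
  · linarith [(mul_eq_zero.1 ((e1 v).symm.trans e)).resolve_left a1.ne']
  · linarith [(mul_eq_zero.1 ((e2 v).symm.trans e)).resolve_left d1.ne']
  have v0 : v ≠ 0 := fun e => by simp [e] at l2
  rw [e1, mul_pos_iff_of_pos_left a1, sub_pos] at l2
  rw [e2, ← not_lt, mul_pos_iff_of_pos_left d1, sub_pos, not_lt] at l3
  refine l1.not_gt ?_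
  rcases lt_trichotomy (v.1 + dr p v) 0 with z | z | z
  · exact key v v0 _ (Or.inl ⟨(le_div_iff_of_neg z).2 l2.le, (div_le_iff_of_neg z).2 l3⟩)
      (div_mul_cancel₀ _ z.ne).symm
  · rw [z, mul_zero] at l2 l3
    exact absurd l2 l3.not_gt
  · exact key v v0 _ (Or.inr ⟨(le_div_iff₀ z).2 l3, (div_le_iff₀ z).2 l2.le⟩)
      (div_mul_cancel₀ _ z.ne').symm

theorem Ok.dT (hp : p ∈ c.D) :
    fderiv ℝ c.tau p eT = 1 + c.G (rd p) * deriv c.W (ur c.M c.a p) := by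
  rw [h.tau_fd hp, dr_T, ur_eq, tA]; simp [eT]

theorem Ok.dT_ge : ∃ c0 > 0, ∀ p ∈ c.D,
    c0 * (1 + rd p * uw c.M c.a p ^ (-c.s)) ≤ fderiv ℝ c.tau p eT := by
  have s0 := sub_pos.2 h.s
  have m0 := h.M0
  have R0 : 0 < c.Rs := by linarith [h.rpS, h.r1.2, h.r10]
  obtain ⟨κ, κ0, hκ⟩ : ∃ κ > 0, ∀ u, κ * √(1 + u ^ 2) ^ (-c.s) ≤ deriv c.W u :=
    ⟨_, by positivity, fun u => (h.W_bd u).1⟩
  refine ⟨min (κ / 2) (1 / (2 * c.Rs + 3)), lt_min (by positivity) (by positivity),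
    fun p hp => ?_⟩
  obtain ⟨u0, u1, u2⟩ := h.uw_le (ur c.M c.a p)
  have g0 := G_nonneg (c := c) (rd p)
  have r0 := h.pos hp
  have k1 := min_le_left (κ / 2) (1 / (2 * c.Rs + 3))
  have k2 := min_le_right (κ / 2) (1 / (2 * c.Rs + 3))
  have k3 := mul_le_mul_of_nonneg_left (hκ (ur c.M c.a p)) g0
  rw [h.dT hp, uw]
  rw [le_div_iff₀ (by positivity)] at k2
  have k0 : 0 < min (κ / 2) (1 / (2 * c.Rs + 3)) := lt_min (by positivity) (by positivity)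
  generalize min (κ / 2) (1 / (2 * c.Rs + 3)) = m at *
  generalize √(1 + ur c.M c.a p ^ 2) ^ (-c.s) = w at *
  rcases le_total (rd p) (2 * c.Rs + 2) with k | k
  · have : rd p * w ≤ 2 * c.Rs + 2 := (mul_le_of_le_one_right r0.le (u1.trans u2)).trans k
    nlinarith [mul_nonneg g0 (mul_pos κ0 u0).le]
  · have k4 : rd p / 2 ≤ c.G (rd p) := by linarith [G_ge (c := c) (rd p)]
    nlinarith [mul_le_mul_of_nonneg_right k4 (mul_pos κ0 u0).le,
      mul_le_mul_of_nonneg_right k1 (mul_pos r0 u0).le, mul_pos k0 R0]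

theorem Ok.low {A : Set R4} (hp : p ∈ c.D) (k : p ∈ interior A) :
    p ∈ closure {q ∈ A | c.tau q < c.tau p} := by
  have d := ((h.tau_cd hp).differentiableAt (by simp)).hasFDerivAt.comp_hasDerivAt_of_eq 0
    (((hasDerivAt_id (0 : ℝ)).smul_const eT).const_add p) (by simp)
  have c1 : Tendsto (fun s : ℝ => p + s • eT) (𝓝[<] 0) (𝓝 p) :=
    (Continuous.tendsto' (by fun_prop) 0 p (by simp)).mono_left nhdsWithin_le_nhds
  have d0 : 0 < fderiv ℝ c.tau p ((1 : ℝ) • eT) := by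
    rw [one_smul, h.dT hp]
    linarith [mul_nonneg (G_nonneg (c := c) (rd p)) (h.W_pos (ur c.M c.a p)).le]
  refine mem_closure_of_tendsto c1 ?_
  filter_upwards [((hasDerivAt_iff_tendsto_slope.1 d).mono_left (nhdsLT_le_nhdsNE 0)).eventually
    (lt_mem_nhds d0), c1.eventually (mem_interior_iff_mem_nhds.1 k), self_mem_nhdsWithin]
    with s a1 a2 a3
  rw [slope_def_field, lt_div_iff_of_neg (sub_neg.2 a3), zero_mul, sub_neg] at a1
  exact ⟨a2, by simpa using a1⟩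

theorem Ok.tauI : Tau c where
  X_sm _ hp := (h.X_cd hp).contDiffWithinAt
  X_out p k := by
    obtain ⟨e1, e2, e3⟩ := al_out (x := c.k * (rd p - c.R1)) (by
      rw [← le_sub_iff_add_le', div_le_iff₀ (by linarith [h.k])] at k; linarith)
    simp [X, Xf, e1, e2, e3]
  X_in p k := by
    obtain ⟨e1, e2, e3⟩ := al_in (x := c.k * (rd p - c.R1)) (by
      rw [le_sub_comm, div_le_iff₀ (by linarith [h.k])] at k; linarith)
    simp [X, Xf, e1, e2, e3]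
  X_tube p k := by
    obtain ⟨e1, e2, e3⟩ := al_mid (x := c.k * (rd p - c.R1)) (by
      rw [le_div_iff₀ (by linarith [h.k])] at k
      rw [abs_mul, abs_of_pos h.k0]; linarith)
    rw [X, Xf, e1, e2, e3]
    module
  X_cau p hp := ⟨h.X_cau hp, by
    rw [gin_symm, P354YR.XI_gin (norm_pos_iff.1 (h.pos hp)), X_fst, neg_lt_zero]
    exact mul_pos ((pow_pos (h.pos hp) 2).trans_le (Sg_ge _ _)) (h.aa_pos _)⟩
  tau_sm _ hp := (h.tau_cd hp).contDiffWithinAt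
  lam_pos := h.lam_pos
  cpt _ := h.cpt
  low _ _ := h.low
  tm _ := h.tmf
  margin := h.margin
  top := h.top
  near p k := by rw [tau, G_zero k, zero_mul, add_zero]
  nu_sm _ k := (h.nu_cd k).contDiffWithinAt
  nu_zero _ := nu_zero
  nu_anti := h.nu_anti
  nu_mono := h.nu_mono
  nu_top := h.nu_top
  far := let ⟨b, k⟩ := h.nu_far; ⟨b, fun p hp => by
    rw [tau, tq, ur_eq]; linarith [k _ hp]⟩
  G_sm := ⟨G_cd, fun r => (G_d r).deriv⟩
  G_bd r := ⟨G_zero, fun k => ⟨G_ge r, G_le k⟩, G_nonneg r⟩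
  G_aff := ⟨_, fun _ => G_aff⟩
  W_sm := W_cd
  W_bd := ⟨_, by have := sub_pos.2 h.s; have := h.M0; positivity,
    fun u => ⟨h.W_mem u, (h.W_bd u).1, h.W_le u⟩⟩
  dT _ := h.dT
  dT_ge := h.dT_ge
  dL p k := by
    have hp : p ∈ c.D := h.lt.trans (by linarith)
    obtain ⟨b, hb, e1, e2⟩ := h.far_eq (w := (p.1, rd p)) k
    have e : fderiv ℝ c.tau p (Lo c.M c.a p) = b := by
      rw [h.tau_fd hp, Lo_fst, dr_Lo (h.pos hp).ne', e2,
        lo1_eq (Del_pos h.sub (by linarith [h.rpR])).ne']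
      ring
    exact ⟨by rw [e, e1, (G_d _).deriv, ur_eq], e ▸ hb⟩
  dO p hp i := by rw [h.tau_fd hp, Om_fst, dr_Om]; ring
  be_sm := ⟨h.be_cd, fun r => (h.be_d r).deriv⟩
  be_far _ := h.be_far
  be_near _ := h.be_near
  be_ge := ⟨h.be_mono, fun _ => h.be_ge⟩
  psi_lt _ hp := h.psi_lt (h.pos hp)
  En_iff := h.En_iff

end Pm

theorem tau_ok : TAU := fun _ h => ⟨h.is, h.tauI, h.ex_str⟩

end Vale.Agent.P354YT
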