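import Vale.Agent.P354YT.Fn

/-!
The components of X, and the derivatives of tau and psi.
-/

open scoped ContDiff
open Set Filter Topology

noncomputable section

namespace Vale.Agent.P354YT

open Vale.Agent.P354n (R4)
open Vale.Agent.P354I (rm rp)
open Vale.Agent.P354R (Del)
open Vale.Agent.P354XE
open Vale.Agent.P354XA (hor lo1 ip rd_cd rd_fd rd_cont dr_eq rd_sq ur_eq)
open Real (smoothTransition)

variable {p v : R4}

/-- The derivative of f at w has the components A, B. -/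
def H2 (f : ℝ × ℝ → ℝ) (w : ℝ × ℝ) (A B : ℝ) : Prop :=
  HasFDerivAt f (A • ContinuousLinearMap.fst ℝ ℝ ℝ + B • ContinuousLinearMap.snd ℝ ℝ ℝ) w

theorem H2.ap {f : ℝ × ℝ → ℝ} {w : ℝ × ℝ} {A B : ℝ} (h : H2 f w A B) (x y : ℝ) :
    fderiv ℝ f w (x, y) = A * x + B * y := by
  rw [HasFDerivAt.fderiv h]; simp

theorem H2.fd {f : ℝ × ℝ → ℝ} {A B : ℝ} (h : H2 f (p.1, rd p) A B) (h0 : rd p ≠ 0) :
    DifferentiableAt ℝ (fun p : R4 => f (p.1, rd p)) p ∧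
      ∀ v, fderiv ℝ (fun p : R4 => f (p.1, rd p)) p v = A * v.1 + B * dr p v := by
  have d := HasFDerivAt.comp p (f := fun p : R4 => (p.1, rd p)) h (hasFDerivAt_fst.prodMk
    ((rd_cd (n := 1) h0).differentiableAt one_ne_zero).hasFDerivAt)
  refine ⟨d.differentiableAt, fun v => ?_⟩
  rw [show fderiv ℝ (fun p : R4 => f (p.1, rd p)) p = _ from d.fderiv]
  simp [rd_fd h0]

theorem H2.rad {f : ℝ → ℝ} {B : ℝ} {w : ℝ × ℝ} (h : HasDerivAt f B w.2) :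
    H2 (fun w => f w.2) w 0 B :=
  (h.comp_hasFDerivAt w hasFDerivAt_snd).congr_fderiv (by simp)

theorem H2.tim {f : ℝ → ℝ} {B : ℝ} {w : ℝ × ℝ} (h : HasDerivAt f B w.2) :
    H2 (fun w => w.1 - f w.2) w 1 (-B) :=
  (hasFDerivAt_fst.sub (h.comp_hasFDerivAt w hasFDerivAt_snd)).congr_fderiv (by
    ext <;> simp)

theorem dr_lin (p : R4) : IsLinearMap ℝ (dr p) :=
  ⟨fun v w => by simp only [dr_eq, ip, Prod.fst_add, Prod.snd_add]; ring,
    fun c v => by simp only [dr_eq, ip, Prod.smul_fst, Prod.smul_snd, smul_eq_mul]; ring⟩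

theorem dr_rad (h : rd p ≠ 0) (t m : ℝ) : dr p (t, (m / rd p) • p.2) = m := by
  have := rd_sq p
  simp only [dr_eq, ip, Prod.smul_fst, Prod.smul_snd, smul_eq_mul] at this ⊢
  field_simp
  linear_combination (-m) * this

namespace Pm

variable {c : Pm} (h : c.Ok) {r : ℝ}

theorem X_eq (c : Pm) (p : R4) :
    c.X p = (c.aa (rd p), (c.rr (rd p) / rd p) • p.2) + c.om (rd p) • Om 2 p := by
  simp only [X, Xf, aa, rr, om, ← rt_mul, Lo, No, eT, Om, xi, lo1]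
  refine Prod.ext ?_ (Prod.ext ?_ (Prod.ext ?_ ?_)) <;> simp <;> ring

theorem X_fst (c : Pm) (p : R4) : (c.X p).1 = c.aa (rd p) := by
  simp [X_eq, P354XA.Om_fst]

theorem X_dr (c : Pm) (h : rd p ≠ 0) : dr p (c.X p) = c.rr (rd p) := by
  rw [X_eq, (dr_lin p).map_add, (dr_lin p).map_smul, P354XA.dr_Om, dr_rad h, smul_zero, add_zero]

theorem open_D (c : Pm) : IsOpen c.D := isOpen_lt continuous_const rd_cont

variable (c) in
/-- The time function on the half plane, and its derivatives. -/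
def T (w : ℝ × ℝ) : ℝ :=
  w.1 - c.H w.2 + c.nu w.2 + c.G w.2 * c.W (w.1 - P354XA.psi c.M c.a w.2)
variable (c) in
def tA (w : ℝ × ℝ) : ℝ := 1 + c.G w.2 * deriv c.W (w.1 - P354XA.psi c.M c.a w.2)
variable (c) in
def tR (w : ℝ × ℝ) : ℝ := -deriv c.H w.2 + (c.n2 w.2 - c.n1 w.2 / (w.2 - c.r1) ^ 2) +
  (smoothTransition (w.2 - c.Rs) * c.W (w.1 - P354XA.psi c.M c.a w.2) -
    c.G w.2 * deriv c.W (w.1 - P354XA.psi c.M c.a w.2) * lo1 c.M c.a w.2)

theorem tau_eq (c : Pm) : c.tau = fun p => c.T (p.1, rd p) := by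
  funext p; simp only [tau, tq, T, ur_eq]

theorem GW_zero {w : ℝ × ℝ} (hw : w.2 < c.Rs) : (fun w : ℝ × ℝ =>
    c.G w.2 * c.W (w.1 - P354XA.psi c.M c.a w.2)) =ᶠ[𝓝 w] fun _ => 0 := by
  filter_upwards [continuous_snd.continuousAt.eventually_lt continuousAt_const hw] with y hy
  rw [G_zero hy.le, zero_mul]

include h

theorem Ok.pos (hp : p ∈ c.D) : 0 < rd p := h.r10.trans hp
theorem Ok.rpS : rp c.M c.a < c.Rs := by linarith [h.rpR, h.Rs]

theorem Ok.X_cd (hp : 0 < rd p) : ContDiffAt ℝ ∞ c.X p := by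
  rw [show c.X = _ from funext c.X_eq]
  have k := rd_cd (n := ∞) hp.ne'
  refine ((h.aa_cd.contDiffAt.comp p k).prodMk (((rr_cd.contDiffAt.comp p k).div k hp.ne').smul
    contDiffAt_snd)).add ((h.om_cd.contDiffAt.comp p k).smul ?_)
  rw [show Om 2 = fun p : R4 => ((0, -p.2.2.1, p.2.1, 0) : R4) from rfl]
  fun_prop

theorem Ok.T_cd {w : ℝ × ℝ} (hw : c.r1 < w.2) : ContDiffAt ℝ ∞ c.T w := by
  refine ((contDiffAt_fst.sub (h.sm.contDiffAt.comp w contDiffAt_snd)).add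
    ((h.nu_cd hw).comp w contDiffAt_snd)).add ?_
  rcases lt_or_ge w.2 c.Rs with k | k
  · exact contDiffAt_const.congr_of_eventuallyEq (GW_zero k)
  · exact (G_cd.contDiffAt.comp w contDiffAt_snd).mul (W_cd.contDiffAt.comp w (contDiffAt_fst.sub
      ((P354XA.psi_cd h.sub (h.rpS.trans_le k)).comp w contDiffAt_snd)))

theorem Ok.H_d (r : ℝ) : HasDerivAt c.H (deriv c.H r) r :=
  (h.sm.differentiable (by simp) r).hasDerivAt

theorem Ok.T_d {w : ℝ × ℝ} (hw : c.r1 < w.2) : H2 c.T w (c.tA w) (c.tR w) := by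
  have d := HasFDerivAt.add (H2.tim (h.H_d w.2)) (H2.rad (h.nu_d hw))
  rcases lt_or_ge w.2 c.Rs with k | k
  · refine (d.add ((hasFDerivAt_const 0 w).congr_of_eventuallyEq (GW_zero k))).congr_fderiv ?_
    rw [tA, tR, G_zero k.le, smoothTransition.zero_of_nonpos (sub_nonpos.2 k.le)]
    ext <;> simp
  · refine (d.add (HasFDerivAt.mul (H2.rad (G_d w.2)) ((W_d _).comp_hasFDerivAt w
      (H2.tim (P354XA.psi_deriv h.sub (h.rpS.trans_le k)))))).congr_fderiv ?_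
    rw [tA, tR]
    ext <;> simp
    ring

theorem Ok.tau_cd (hp : p ∈ c.D) : ContDiffAt ℝ ∞ c.tau p := by
  rw [tau_eq]
  exact (h.T_cd (w := (p.1, rd p)) hp).comp p (contDiffAt_fst.prodMk (rd_cd (h.pos hp).ne'))

theorem Ok.tau_fd (hp : p ∈ c.D) (v : R4) :
    fderiv ℝ c.tau p v = c.tA (p.1, rd p) * v.1 + c.tR (p.1, rd p) * dr p v := by
  rw [tau_eq]
  exact ((h.T_d (w := (p.1, rd p)) hp).fd (h.pos hp).ne').2 v

theorem Ok.lam_eq (hp : p ∈ c.D) :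
    c.lam p = c.tA (p.1, rd p) * c.aa (rd p) + c.tR (p.1, rd p) * c.rr (rd p) := by
  rw [lam, h.tau_fd hp, X_fst, X_dr c (h.pos hp).ne']

theorem Ok.tA_ge (w : ℝ × ℝ) : 1 ≤ c.tA w :=
  le_add_of_nonneg_right (mul_nonneg (G_nonneg _) (h.W_pos _).le)

omit h in
theorem near_eq {w : ℝ × ℝ} (hw : w.2 ≤ c.Rs) : c.tA w = 1 ∧
    c.tR w = -deriv c.H w.2 + (c.n2 w.2 - c.n1 w.2 / (w.2 - c.r1) ^ 2) := by
  rw [tA, tR, G_zero hw, smoothTransition.zero_of_nonpos (sub_nonpos.2 hw)]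
  exact ⟨by ring, by ring⟩

theorem Ok.far_eq {w : ℝ × ℝ} (hw : c.R1 + 1 ≤ w.2) : ∃ b ∈ Icc (3 / 2 : ℝ) (7 / 4),
    b = 3 / 2 + smoothTransition (w.2 - c.Rs) * c.W (w.1 - P354XA.psi c.M c.a w.2) ∧
    c.tR w = b - (2 * qm c.M c.a w.2 + 1) * c.tA w := by
  have k : rp c.M c.a < w.2 := by linarith [h.rpR]
  obtain ⟨s0, s1⟩ := st_mem (w.2 - c.Rs)
  obtain ⟨w0, w1⟩ := h.W_mem (w.1 - P354XA.psi c.M c.a w.2)
  refine ⟨_, ⟨by nlinarith, by nlinarith⟩, rfl, ?_⟩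
  rw [tA, tR, n1_zero k.le, n2, smoothTransition.one_of_one_le (x := w.2 - c.R1) (by linarith),
    lo1_eq (Del_pos h.sub k).ne']
  ring

theorem Ok.out_eq (hr : c.R1 + 1 / 2 ≤ r) : c.aa r = 2 * qm c.M c.a r + 1 ∧ c.rr r = 1 := by
  obtain ⟨e1, e2, e3⟩ := al_out (h.xi_out hr)
  rw [aa, rr, ← rt_mul, e1, e2, e3, lo1_eq (Del_pos h.sub (by linarith [h.rpR])).ne']
  exact ⟨by ring, by ring⟩

theorem Ok.rr_sign (r : ℝ) : (c.R1 ≤ r → 0 ≤ c.rr r) ∧ (r ≤ c.R1 → c.rr r ≤ 0) :=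
  ⟨fun k => mul_nonneg (not_lt.1 fun e => k.not_gt (h.xi_pos.2.1 e)) (rt_pos _).le, fun k =>
    mul_nonpos_of_nonpos_of_nonneg (not_lt.1 fun e => k.not_gt (h.xi_pos.1.1 e)) (rt_pos _).le⟩

theorem Ok.Xq_pos (hr : c.r1 ≤ r) : 0 < c.aa r - deriv c.H r * c.rr r := by
  obtain ⟨t1, t2⟩ := h.tm r hr
  refine h.X_pos (by linarith) fun k => ?_
  have D := Del_pos h.sub (rp_lt h.sub k)
  rw [← qm_mul D.ne'] at t2
  by_contra! e
  nlinarith [sq_nonneg c.a, mul_nonneg (mul_pos D t1).le (sub_nonneg.2 e)]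

theorem Ok.lam2 : ∃ c0 > 0, ∀ w : ℝ × ℝ, c.r1 < w.2 →
    c0 ≤ c.tA w * c.aa w.2 + c.tR w * c.rr w.2 := by
  obtain ⟨m, m0, hm⟩ := (isCompact_Icc (a := c.r1) (b := c.R1 + 1)).exists_forall_le'
    (f := fun r => c.aa r - deriv c.H r * c.rr r) (h.aa_cd.continuous.sub
      ((h.sm.continuous_deriv (by simp)).mul rr_cd.continuous)).continuousOn
    fun r k => h.Xq_pos k.1
  refine ⟨min m 1, lt_min m0 one_pos, fun w hw => ?_⟩
  rcases le_total w.2 (c.R1 + 1) with k | k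
  · obtain ⟨e1, e2⟩ := near_eq (k.trans h.Rs)
    have e3 : 0 ≤ (c.n2 w.2 - c.n1 w.2 / (w.2 - c.r1) ^ 2) * c.rr w.2 := by
      rcases le_total w.2 c.R1 with k | k
      · rw [n2_zero k, zero_sub]
        exact mul_nonneg_of_nonpos_of_nonpos (neg_nonpos.2 (div_nonneg (n1_nonneg hw.le)
          (sq_nonneg _))) ((h.rr_sign _).2 k)
      · rw [n1_zero (by linarith [h.rpR]), zero_div, sub_zero]
        exact mul_nonneg (h.n2_nonneg _) ((h.rr_sign _).1 k)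
    rw [e1, e2]
    linarith [min_le_left m 1, hm w.2 ⟨hw.le, k⟩]
  · obtain ⟨b, hb, -, e⟩ := h.far_eq k
    obtain ⟨e1, e2⟩ := h.out_eq (r := w.2) (by linarith)
    rw [e, e1, e2]
    linarith [min_le_right m 1, hb.1]

theorem Ok.lam_pos : ∃ c0 > 0, ∀ p ∈ c.D, c0 ≤ c.lam p :=
  let ⟨c0, h0, k⟩ := h.lam2
  ⟨c0, h0, fun p hp => h.lam_eq hp ▸ k (p.1, rd p) hp⟩

theorem Ok.T_near {w : ℝ × ℝ} (hw : w.2 ≤ c.Rs) : c.T w = w.1 - c.H w.2 + c.nu w.2 := by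
  have := h.k
  rw [T, G_zero hw, zero_mul, add_zero]

theorem Ok.F_zero : c.F c.R1 = 0 := by
  have := h.k
  rw [F, xi, sub_self, mul_zero, zero_mul]

theorem Ok.F_top : Tendsto c.F atTop atTop := by
  have mo := strictMono_of_deriv_pos fun r => (h.F_cd.2 r).1
  have f0 : 0 < c.F (c.R1 + 1) := h.F_zero ▸ mo (lt_add_one _)
  have d := h.F_cd.1.differentiable (by simp)
  refine tendsto_atTop_mono' _ ?_ (tendsto_atTop_add_const_right _ (c.F (c.R1 + 1))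
    ((tendsto_atTop_add_const_right _ (-(c.R1 + 1)) tendsto_id).const_mul_atTop f0))
  filter_upwards [eventually_ge_atTop (c.R1 + 1)] with r hr
  refine le_sub_iff_add_le.1 ((convex_Ici (c.R1 + 1)).mul_sub_le_image_sub_of_le_deriv
    d.continuous.continuousOn d.differentiableOn (fun x hx => ?_) _ self_mem_Ici r hr hr)
  have hx : c.R1 + 1 ≤ x := interior_subset hx
  obtain ⟨e1, e2⟩ := h.out_eq (r := x) (by linarith)
  have e := (h.F_cd.2 x).2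
  have q := qm_pos h.sub (show rp c.M c.a < x by linarith [h.rpR])
  have f1 := mo.monotone hx
  rw [e1, e2, one_mul] at e
  rw [e]
  have : 1 ≤ c.k * (2 * qm c.M c.a x + 1) := by nlinarith [h.k]
  nlinarith

theorem Ok.pl : Pl c.r1 c.R1 c.k c.aa c.rr c.F c.T where
  lt := h.lt
  k0 := h.k0
  F_sm := h.F_cd.1
  F0 := h.F_zero
  F' r := (h.F_cd.2 r).1
  Ft := h.F_top
  al r _ := h.aa_pos r
  eq r _ := (h.F_cd.2 r).2
  T_sm _ := h.T_cd
  XT := by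
    obtain ⟨c0, h0, k⟩ := h.lam2
    refine ⟨c0 / 2, by positivity, fun w hw => ?_⟩
    rw [(h.T_d hw).ap]
    nlinarith [k w hw, h.aa_le w.2]
  top t := by
    have c1 : Tendsto (fun w : ℝ × ℝ => w.1 - c.H w.2) (𝓝 t ×ˢ 𝓝[>] c.r1) (𝓝 _) :=
      tendsto_fst.sub ((h.sm.continuous.tendsto c.r1).comp
        (tendsto_snd.mono_right nhdsWithin_le_nhds))
    refine (c1.add_atTop (h.nu_top.comp tendsto_snd)).congr' ?_
    filter_upwards [tendsto_snd.eventually (nhdsWithin_le_nhds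
      (Iio_mem_nhds (h.r1.2.trans h.rpS)))] with w k
    exact (h.T_near (le_of_lt k)).symm

/-! ### psi -/

variable (c) in
omit h in
/-- The slope of the levels of psi. -/
def sl (p : R4) : ℝ :=
  smoothTransition (rd p - c.Rb) * qm c.M c.a (rd p) + (c.psi p + 2) * c.del

theorem Ok.psi_cd (hp : 0 < rd p) : ContDiffAt ℝ ∞ c.psi p :=
  have k := rd_cd (n := ∞) hp.ne'
  ((contDiffAt_fst.sub (h.be_cd.contDiffAt.comp p k)).div (contDiffAt_const.mul k)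
    (mul_pos h.del.1 hp).ne').sub contDiffAt_const

theorem Ok.psi_fd (hp : 0 < rd p) (v : R4) :
    fderiv ℝ c.psi p v = (v.1 - c.sl p * dr p v) / (c.del * rd p) := by
  have d0 := h.del.1.ne'
  have r0 := hp.ne'
  have d : H2 (fun w => (w.1 - c.be w.2) * (c.del * w.2)⁻¹ - 2) (p.1, rd p) (c.del * rd p)⁻¹
      (-c.sl p / (c.del * rd p)) := by
    refine ((HasFDerivAt.mul (H2.tim (w := (p.1, rd p)) (h.be_d _)) (H2.rad (w := (p.1, rd p))
      (((hasDerivAt_id (rd p)).const_mul c.del).inv (mul_ne_zero d0 r0)))).sub_const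
      2).congr_fderiv ?_
    rw [sl, psi]
    ext <;> simp
    field_simp
  rw [show c.psi = fun p : R4 => (p.1 - c.be (rd p)) * (c.del * rd p)⁻¹ - 2 from rfl,
    (d.fd r0).2]
  field_simp
  ring

theorem Ok.sl_mem (hp : c.psi p ∈ Icc (-2 : ℝ) 1) : c.sl p ∈ Icc (0 : ℝ) (11 / 20) := by
  obtain ⟨b0, b1⟩ := h.bi_mem (rd p)
  obtain ⟨d0, d1⟩ := h.del
  exact ⟨add_nonneg b0 (mul_nonneg (by linarith [hp.1]) d0.le), by
    unfold sl; nlinarith [hp.1, hp.2]⟩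

theorem Ok.X_psi (hp : 0 < rd p) (hb : c.psi p ∈ Icc (-2 : ℝ) 1) :
    0 < fderiv ℝ c.psi p (c.X p) := by
  obtain ⟨s0, s1⟩ := h.sl_mem hb
  rw [h.psi_fd hp, X_fst, X_dr c hp.ne']
  exact div_pos (h.X_pos (by linarith) fun k => by linarith [qm_pos h.sub (rp_lt h.sub k)])
    (mul_pos h.del.1 hp)

theorem Ok.psi_lt (hp : 0 < rd p) (b : ℝ) :
    c.psi p < b ↔ p.1 < c.be (rd p) + (b + 2) * (c.del * rd p) := by
  rw [psi, sub_lt_iff_lt_add, div_lt_iff₀ (mul_pos h.del.1 hp), sub_lt_iff_lt_add']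

end Pm

end Vale.Agent.P354YT
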