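import Vale.Agent.P354XE.Iface
import Vale.Agent.P354YR.Defs
import Vale.Agent.P354XV.Defs

/-!
The scaffold of an end: the field X, the time function tau, the collar function psi, and the chart
which straightens X.
-/

open scoped ContDiff
open Set Filter Topology

noncomputable section

namespace Vale.Agent.P354YT

open Vale.Agent.P354n (R4)
open Vale.Agent.P354I (rm rp)
open Vale.Agent.P354R (Del)
open Vale.Agent.P354XE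
open Vale.Agent.P354YR (XI)
open Vale.Agent.P354XV (Spl)

/-- The ingoing principal null field. -/
def No (p : R4) : R4 := (1, (-(rd p)⁻¹) • p.2)

/-- The coefficients, as functions of x = k (r - R1): sg vanishes for x ≤ 1/4 and is 1 for
x ≥ 1/2. -/
def sg (x : ℝ) : ℝ := Real.smoothTransition (4 * x - 1)
def al (x : ℝ) : ℝ := 1 - sg x - sg (-x)
def bp (x : ℝ) : ℝ := al x * x / 2 + sg x

/-- The field X; its radial part is k (r - R1) near the tube r = R1. -/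
def Xf (M a R1 k : ℝ) (p : R4) : R4 :=
  al (k * (rd p - R1)) • eT + bp (k * (rd p - R1)) • Lo M a p + bp (-(k * (rd p - R1))) • No p

/-- The slice T = 0 is t = tb r, and qm is the derivative of tb. -/
def tb (M a r : ℝ) : ℝ :=
  (Real.log (r - rp M a) - rm M a / rp M a * Real.log (r - rm M a)) / (2 * ka M a)
def qm (M a r : ℝ) : ℝ := 2 * M * r / Del M a r

/-- The point with the time t, whose space part is that of p rotated by c and scaled by m. -/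
def pol (t m c : ℝ) (p : R4) : R4 :=
  (t, m * (Real.cos c * p.2.1 - Real.sin c * p.2.2.1),
    m * (Real.sin c * p.2.1 + Real.cos c * p.2.2.1), m * p.2.2.2)

/-- The radial part of X is x rt x. -/
def s1 (x : ℝ) : ℝ := sg x / x
def s2 (x : ℝ) : ℝ := sg x / x ^ 2
def rt (x : ℝ) : ℝ := al x + s1 x + s1 (-x)

/-- The parameters; t - H r is the time of the slices. -/
structure Pm where
  M : ℝ
  a : ℝ
  r1 : ℝ
  R1 : ℝ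
  k : ℝ
  Rs : ℝ
  s : ℝ
  H : ℝ → ℝ
  Rb : ℝ
  del : ℝ

namespace Pm

variable (c : Pm)

structure Ok : Prop where
  sub : |c.a| < c.M
  r1 : rm c.M c.a < c.r1 ∧ c.r1 < rp c.M c.a
  R1 : 10 * c.M + 1 ≤ c.R1
  k : 1 ≤ c.k
  Rs : c.R1 + 1 ≤ c.Rs
  s : 1 < c.s
  sm : ContDiff ℝ ∞ c.H
  tm : ∀ r ≥ c.r1, 0 < 1 + deriv c.H r ∧ c.a ^ 2 - 2 * (r ^ 2 + c.a ^ 2) * (1 + deriv c.H r) +
    Del c.M c.a r * (1 + deriv c.H r) ^ 2 < 0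
  out : ∀ r ≥ c.R1, 2 * qm c.M c.a r - 1 / 2 ≤ deriv c.H r
  Rb : 10 * c.M ≤ c.Rb
  del : 0 < c.del ∧ c.del ≤ 1 / 10

def X : R4 → R4 := Xf c.M c.a c.R1 c.k
def D : Set R4 := {p | c.r1 < rd p}

def nu (r : ℝ) : ℝ := Real.smoothTransition (rp c.M c.a - r) / (r - c.r1) +
  ∫ x in c.R1..r, Real.smoothTransition (x - c.R1) * (1 / 2 - 2 * qm c.M c.a x + deriv c.H x)
def G (r : ℝ) : ℝ := ∫ x in c.Rs..r, Real.smoothTransition (x - c.Rs)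
def W (u : ℝ) : ℝ := Real.sigmoid ((c.s - 1) * Real.arsinh u) / (4 + (c.s - 1) * c.M)

/-- The time of the slices, the time function, and its derivative along X. -/
def tq (p : R4) : ℝ := p.1 - c.H (rd p)
def tau (p : R4) : ℝ := c.tq p + c.nu (rd p) + c.G (rd p) * c.W (ur c.M c.a p)
def lam (p : R4) : ℝ := fderiv ℝ c.tau p (c.X p)

/-- The collar function and the domain. -/
def be (r : ℝ) : ℝ := tb c.M c.a (c.Rb + 1) +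
  ∫ x in (c.Rb + 1)..r, Real.smoothTransition (x - c.Rb) * qm c.M c.a x
def psi (p : R4) : ℝ := (p.1 - c.be (rd p)) / (c.del * rd p) - 2
def O : Set R4 := {p | c.r1 < rd p ∧ -2 < c.psi p}

/-- The first integrals F r exp (-k t) and φ - J r of X. -/
def xi (r : ℝ) : ℝ := c.k * (r - c.R1)
def F (r : ℝ) : ℝ := c.xi r * Real.exp (∫ x in c.R1..r, c.k *
  ((al (c.xi x) * qm c.M c.a x + s1 (c.xi x) * (2 * qm c.M c.a x + 1) - s1 (-c.xi x) -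
    s2 (c.xi x) + s2 (-c.xi x)) / rt (c.xi x)))
def J (r : ℝ) : ℝ := ∫ x in c.R1..r,
  (al (c.xi x) / 2 + s1 (c.xi x)) * (2 * c.a / Del c.M c.a x) / rt (c.xi x)
def lab (p : R4) : ℝ := c.F (rd p) * Real.exp (-(c.k * p.1))

/-- The chart (s, y): s = tau, the length of y is exp lab, its direction is (θ, φ - J r). -/
def Psi (p : R4) : R4 := pol (c.tau p) (Real.exp (c.lab p) / rd p) (-c.J (rd p)) p

/-- The scaffold. -/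
def sc : P354XV.Sc := ⟨c.O, c.X, c.tau, c.psi, c.Psi⟩

end Pm

/-- The domain of the chart (s, y). -/
def P0 : Set R4 := {q | xs q ≠ 0}

/-- The inverse Φ of the chart; the lines of X are the lines y = const. -/
structure Str (c : Pm) (Φ : R4 → R4) : Prop where
  Psi_sm : ContDiffOn ℝ ∞ c.Psi c.D
  Phi_sm : ContDiffOn ℝ ∞ Φ P0
  Psi_map : MapsTo c.Psi c.D P0
  Phi_map : MapsTo Φ P0 c.D
  left : ∀ p ∈ c.D, Φ (c.Psi p) = p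
  right : ∀ q ∈ P0, c.Psi (Φ q) = q
  str : ∀ p ∈ c.D, fderiv ℝ c.Psi p (c.X p) = c.lam p • eT
  line : ∀ q ∈ P0, fderiv ℝ Φ q eT = (c.lam (Φ q))⁻¹ • c.X (Φ q)
  side : ∀ q ∈ P0, (1 < rd q ↔ c.R1 < rd (Φ q)) ∧ (rd q < 1 ↔ rd (Φ q) < c.R1)
  rad : ∀ q ∈ P0, Monotone fun s : ℝ => |rd (Φ (q + s • eT)) - c.R1|
  time : ∀ q ∈ P0, StrictMono (fun s : ℝ => (Φ (q + s • eT)).1) ∧
    StrictMono (fun s : ℝ => c.tq (Φ (q + s • eT))) ∧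
    Tendsto (fun s : ℝ => (Φ (q + s • eT)).1) atBot atBot ∧
    Tendsto (fun s : ℝ => rd (Φ (q + s • eT))) atBot (𝓝 c.R1)
  ret : ∀ q ∈ P0, c.R1 + 1 / 2 ≤ rd (Φ q) → ∀ s ≥ (0 : ℝ),
    ur c.M c.a (Φ (q + s • eT)) = ur c.M c.a (Φ q)
  up : ∀ θ, ∀ q ∈ P0, Φ q ∈ En c.M c.a c.r1 θ → ∀ s > (0 : ℝ),
    Φ (q + s • eT) ∈ interior (En c.M c.a c.r1 θ)
  col : ∀ b ∈ Icc (-2 : ℝ) 1, ∀ q ∈ P0, b ≤ c.psi (Φ q) → ∀ s > (0 : ℝ),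
    b < c.psi (Φ (q + s • eT))
  exit : ∀ q ∈ P0, Tendsto (fun s : ℝ => c.psi (Φ (q + s • eT))) atBot atBot

/-- The properties of X, tau and psi. -/
structure Tau (c : Pm) : Prop where
  X_sm : ContDiffOn ℝ ∞ c.X {p | 0 < rd p}
  X_out : ∀ p, c.R1 + 1 / (2 * c.k) ≤ rd p → c.X p = Lo c.M c.a p
  X_in : ∀ p, rd p ≤ c.R1 - 1 / (2 * c.k) → c.X p = No p
  X_tube : ∀ p, |rd p - c.R1| ≤ 1 / (4 * c.k) →
    c.X p = eT + (c.k * (rd p - c.R1) / 2) • (Lo c.M c.a p - No p)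
  X_cau : ∀ p ∈ c.D, gin c.M c.a p (c.X p) (c.X p) ≤ 0 ∧
    gin c.M c.a p (c.X p) (XI c.M c.a p) < 0
  tau_sm : ContDiffOn ℝ ∞ c.tau c.D
  lam_pos : ∃ c0 > 0, ∀ p ∈ c.D, c0 ≤ c.lam p
  cpt : ∀ θ > 0, ∀ V, IsCompact {p ∈ En c.M c.a c.r1 θ | c.tau p ≤ V}
  low : ∀ A, ∀ p ∈ c.D, p ∈ interior A → p ∈ closure {q ∈ A | c.tau q < c.tau p}
  tm : ∀ p ∈ c.D, Tm (gin c.M c.a) (XI c.M c.a) c.tau p
  margin : ∀ B, ∃ c0 > 0, ∀ p ∈ c.D, c.G (rd p) * deriv c.W (ur c.M c.a p) ≤ B →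
    ∀ e ∈ Icc (0 : ℝ) (1 / 5), (rd p < c.R1 + 1 → e = 0) → ∀ v,
      fderiv ℝ c.tau p v + e * dr p v = 0 → c0 * ‖v‖ ^ 2 ≤ gin c.M c.a p v v
  top : ∃ c0 > 0, ∀ (g : Tw), ∀ p ∈ c.D, c.psi p ∈ Icc (-2 : ℝ) 1 →
    (∀ v, |g p v v - gin c.M c.a p v v| ≤ c0 * ‖v‖ ^ 2) → Spl g c.tau p ∧ Spl g c.psi p ∧
      ∀ v, g p v v ≤ 0 → 0 < fderiv ℝ c.tau p v → 0 < fderiv ℝ c.psi p v
  near : ∀ p, rd p ≤ c.Rs → c.tau p = c.tq p + c.nu (rd p)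
  nu_sm : ContDiffOn ℝ ∞ c.nu (Ioi c.r1)
  nu_zero : ∀ r ∈ Icc (rp c.M c.a) c.R1, c.nu r = 0
  nu_anti : AntitoneOn c.nu (Ioc c.r1 c.R1)
  nu_mono : MonotoneOn c.nu (Ici c.R1)
  nu_top : Tendsto c.nu (𝓝[>] c.r1) atTop
  far : ∃ b, ∀ p, c.R1 + 1 ≤ rd p →
    c.tau p = ur c.M c.a p + 3 / 2 * rd p + b + c.G (rd p) * c.W (ur c.M c.a p)
  G_sm : ContDiff ℝ ∞ c.G ∧ ∀ r, deriv c.G r = Real.smoothTransition (r - c.Rs)
  G_bd : ∀ r, (r ≤ c.Rs → c.G r = 0) ∧ (c.Rs ≤ r → r - c.Rs - 1 ≤ c.G r ∧ c.G r ≤ r - c.Rs) ∧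
    0 ≤ c.G r
  G_aff : ∃ b, ∀ r ≥ c.Rs + 1, c.G r = r - b
  W_sm : ContDiff ℝ ∞ c.W
  W_bd : ∃ c0 > 0, ∀ u, c.W u ∈ Icc (0 : ℝ) (1 / 4) ∧ c0 * √(1 + u ^ 2) ^ (-c.s) ≤ deriv c.W u ∧
    deriv c.W u ≤ (c.s - 1) / 4 * √(1 + u ^ 2) ^ (-c.s)
  dT : ∀ p ∈ c.D, fderiv ℝ c.tau p eT = 1 + c.G (rd p) * deriv c.W (ur c.M c.a p)
  dT_ge : ∃ c0 > 0, ∀ p ∈ c.D, c0 * (1 + rd p * uw c.M c.a p ^ (-c.s)) ≤ fderiv ℝ c.tau p eT
  dL : ∀ p, c.R1 + 1 ≤ rd p → fderiv ℝ c.tau p (Lo c.M c.a p) =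
    3 / 2 + deriv c.G (rd p) * c.W (ur c.M c.a p) ∧
    fderiv ℝ c.tau p (Lo c.M c.a p) ∈ Icc (3 / 2 : ℝ) (7 / 4)
  dO : ∀ p ∈ c.D, ∀ i, fderiv ℝ c.tau p (Om i p) = 0
  be_sm : ContDiff ℝ ∞ c.be ∧ ∀ r, deriv c.be r = Real.smoothTransition (r - c.Rb) * qm c.M c.a r
  be_far : ∀ r ≥ c.Rb + 1, c.be r = tb c.M c.a r
  be_near : ∀ r ≤ c.Rb, c.be r = c.be c.Rb
  be_ge : Monotone c.be ∧ ∀ r > rp c.M c.a, tb c.M c.a r ≤ c.be r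
  psi_lt : ∀ p ∈ c.D, ∀ b, c.psi p < b ↔ p.1 < c.be (rd p) + (b + 2) * (c.del * rd p)
  En_iff : ∀ θ p, p ∈ En c.M c.a c.r1 θ ↔ p ∈ c.D ∧ θ ≤ Real.exp (ka c.M c.a * p.1) ∧
    (rp c.M c.a < rd p → tb c.M c.a (rd p) ≤ p.1)

/-- TAU. -/
def TAU : Prop := ∀ c : Pm, c.Ok → c.sc.Is ∧ Tau c ∧ ∃ Φ, Str c Φ

end Vale.Agent.P354YT
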