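import Vale.Agent.P354YT.Tau

/-!
The chart Psi, the compactness of the sublevels of tau, and the axioms of the scaffold.
-/

open scoped ContDiff
open Set Filter Topology

noncomputable section

namespace Vale.Agent.P354YT

open Vale.Agent.P354n (R4)
open Vale.Agent.P354I (rm rp)
open Vale.Agent.P354R (Del)
open Vale.Agent.P354XE
open Vale.Agent.P354XA (hor lo1 ip rd_cd rd_fd rd_cont dr_eq rd_sq rd_nonneg ur_eq)
open Real (smoothTransition)

variable {p q v : R4}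

/-- The coordinates. -/
def e4 : R4 ≃ₗ[ℝ] (Fin 4 → ℝ) where
  toFun p := ![p.1, p.2.1, p.2.2.1, p.2.2.2]
  invFun f := (f 0, f 1, f 2, f 3)
  map_add' p q := by ext i; fin_cases i <;> rfl
  map_smul' c p := by ext i; fin_cases i <;> rfl
  left_inv _ := rfl
  right_inv f := by ext i; fin_cases i <;> rfl

theorem det4 (L : R4 →ₗ[ℝ] R4) {u v w x : R4} (h0 : L (1, 0, 0, 0) = u) (h1 : L (0, 1, 0, 0) = v)
    (h2 : L (0, 0, 1, 0) = w) (h3 : L (0, 0, 0, 1) = x) : LinearMap.det L =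
    u.1 * (v.2.1 * (w.2.2.1 * x.2.2.2 - w.2.2.2 * x.2.2.1) -
      w.2.1 * (v.2.2.1 * x.2.2.2 - v.2.2.2 * x.2.2.1) +
      x.2.1 * (v.2.2.1 * w.2.2.2 - v.2.2.2 * w.2.2.1)) -
    v.1 * (u.2.1 * (w.2.2.1 * x.2.2.2 - w.2.2.2 * x.2.2.1) -
      w.2.1 * (u.2.2.1 * x.2.2.2 - u.2.2.2 * x.2.2.1) +
      x.2.1 * (u.2.2.1 * w.2.2.2 - u.2.2.2 * w.2.2.1)) +
    w.1 * (u.2.1 * (v.2.2.1 * x.2.2.2 - v.2.2.2 * x.2.2.1) -
      v.2.1 * (u.2.2.1 * x.2.2.2 - u.2.2.2 * x.2.2.1) +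
      x.2.1 * (u.2.2.1 * v.2.2.2 - u.2.2.2 * v.2.2.1)) -
    x.1 * (u.2.1 * (v.2.2.1 * w.2.2.2 - v.2.2.2 * w.2.2.1) -
      v.2.1 * (u.2.2.1 * w.2.2.2 - u.2.2.2 * w.2.2.1) +
      w.2.1 * (u.2.2.1 * v.2.2.2 - u.2.2.2 * v.2.2.1)) := by
  have e : LinearMap.toMatrix' (e4.toLinearMap ∘ₗ L ∘ₗ e4.symm.toLinearMap) =
      !![u.1, v.1, w.1, x.1; u.2.1, v.2.1, w.2.1, x.2.1; u.2.2.1, v.2.2.1, w.2.2.1, x.2.2.1;
        u.2.2.2, v.2.2.2, w.2.2.2, x.2.2.2] := by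
    subst h0 h1 h2 h3
    ext i j
    fin_cases j <;> fin_cases i <;> rfl
  rw [← LinearMap.det_conj L e4, ← LinearMap.det_toMatrix', e]
  simp [Matrix.det_succ_row_zero, Fin.sum_univ_succ, Fin.succAbove]
  ring

theorem rd_pol (t m c : ℝ) (hm : 0 ≤ m) (p : R4) : rd (pol t m c p) = m * rd p := by
  refine (pow_left_inj₀ (rd_nonneg _) (mul_nonneg hm (rd_nonneg _)) two_ne_zero).1 ?_
  rw [mul_pow, rd_sq, rd_sq]
  simp only [ip, pol]
  linear_combination m ^ 2 * (p.2.1 ^ 2 + p.2.2.1 ^ 2) * Real.sin_sq_add_cos_sq c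

theorem pol_pol (t m c t' m' c' : ℝ) (p : R4) :
    pol t' m' c' (pol t m c p) = pol t' (m' * m) (c' + c) p := by
  simp only [pol, Real.cos_add, Real.sin_add, Prod.mk.injEq, true_and]
  refine ⟨by ring, by ring, by ring⟩

theorem pol_id (p : R4) : pol p.1 1 0 p = p := by simp [pol]

theorem pol_cd {t m c : R4 → ℝ} (ht : ContDiffAt ℝ ∞ t p) (hm : ContDiffAt ℝ ∞ m p)
    (hc : ContDiffAt ℝ ∞ c p) : ContDiffAt ℝ ∞ (fun p => pol (t p) (m p) (c p) p) p := by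
  unfold pol
  fun_prop

theorem pol_fd {t m c : R4 → ℝ} (ht : DifferentiableAt ℝ t p) (hm : DifferentiableAt ℝ m p)
    (hc : DifferentiableAt ℝ c p) (v : R4) : fderiv ℝ (fun p => pol (t p) (m p) (c p) p) p v =
      pol (fderiv ℝ t p v) 1 (c p)
        (fderiv ℝ m p v • p + m p • v + (m p * fderiv ℝ c p v) • Om 2 p) := by
  have x := (hasFDerivAt_id (𝕜 := ℝ) p).snd.fst
  have y := (hasFDerivAt_id (𝕜 := ℝ) p).snd.snd.fst
  have z := (hasFDerivAt_id (𝕜 := ℝ) p).snd.snd.snd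
  have C := hc.hasFDerivAt.cos
  have S := hc.hasFDerivAt.sin
  have M := hm.hasFDerivAt
  rw [show fderiv ℝ (fun p => pol (t p) (m p) (c p) p) p = _ from (ht.hasFDerivAt.prodMk
    ((M.mul ((C.mul x).sub (S.mul y))).prodMk ((M.mul ((S.mul x).add (C.mul y))).prodMk
      (M.mul z)))).fderiv]
  simp [pol, Om]
  refine ⟨by ring, by ring, by ring⟩

theorem det_pol {L : R4 →ₗ[ℝ] R4} {A B E D K m c : ℝ} (h : ∀ v, L v = pol (A * v.1 + B * ip p v) 1 c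
    ((E * v.1 + D * ip p v) • p + m • v + (K * ip p v) • Om 2 p)) :
    LinearMap.det L = m ^ 2 * (A * (m + D * ip p p) - B * E * ip p p) := by
  rw [det4 L (h _) (h _) (h _) (h _)]
  simp [pol, Om, ip]
  linear_combination m ^ 2 * (A * (m + D * (p.2.1 ^ 2 + p.2.2.1 ^ 2 + p.2.2.2 ^ 2)) -
    B * E * (p.2.1 ^ 2 + p.2.2.1 ^ 2 + p.2.2.2 ^ 2)) * Real.sin_sq_add_cos_sq c

/-- The ends in terms of tb. -/
theorem T_iff {M a : ℝ} (h : |a| < M) (hp : rm M a < rd p) :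
    0 ≤ (kap M a p).1 ↔ (rp M a < rd p → tb M a (rd p) ≤ p.1) := by
  obtain ⟨-, h1, h2, -, h4, -⟩ := hor h
  have m0 : 0 < mf M a (rd p) * Real.exp (ka M a * p.1) :=
    mul_pos (Real.rpow_pos_of_pos (sub_pos.2 hp) _) (Real.exp_pos _)
  have e : (kap M a p).1 = (-(rd p - rp M a) / (mf M a (rd p) * Real.exp (ka M a * p.1)) +
      mf M a (rd p) * Real.exp (ka M a * p.1)) / 2 := rfl
  rw [e, div_add' _ _ _ m0.ne', le_div_iff₀ two_pos, zero_mul, le_div_iff₀ m0, zero_mul]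
  rcases le_or_gt (rd p) (rp M a) with k | k
  · exact iff_of_true (by nlinarith) fun k' => absurd k' k.not_gt
  have e2 : Real.log (mf M a (rd p) * Real.exp (ka M a * p.1)) =
      rm M a / (2 * rp M a) * Real.log (rd p - rm M a) + ka M a * p.1 := by
    rw [mf, Real.log_mul (Real.rpow_pos_of_pos (sub_pos.2 hp) _).ne' (Real.exp_pos _).ne',
      Real.log_rpow (sub_pos.2 hp), Real.log_exp]
  rw [imp_iff_right k, neg_add_eq_sub, sub_nonneg, ← Real.log_le_log_iff (sub_pos.2 k)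
    (mul_pos m0 m0), Real.log_mul m0.ne' m0.ne', e2, tb, div_le_iff₀ (by positivity)]
  have e3 : rm M a / rp M a = 2 * (rm M a / (2 * rp M a)) := by
    have : rp M a ≠ 0 := (h1.trans_lt h2).ne'
    field_simp
  rw [e3]
  constructor <;> intro k <;> linarith

namespace Pm

variable {c : Pm} (h : c.Ok) {r : ℝ}
include h

theorem Ok.En_iff (θ : ℝ) (p : R4) : p ∈ En c.M c.a c.r1 θ ↔ p ∈ c.D ∧
    θ ≤ Real.exp (ka c.M c.a * p.1) ∧ (rp c.M c.a < rd p → tb c.M c.a (rd p) ≤ p.1) :=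
  and_congr_right fun k => and_congr_right fun _ => T_iff h.sub (h.r1.1.trans k)

theorem Ok.lab_d (w : ℝ × ℝ) : H2 (fun w => c.F w.2 * Real.exp (-(c.k * w.1))) w
    (-(c.k * (c.F w.2 * Real.exp (-(c.k * w.1)))))
    (deriv c.F w.2 * Real.exp (-(c.k * w.1))) :=
  (HasFDerivAt.mul (H2.rad (h.pl.Fd w.2))
    ((hasFDerivAt_fst (𝕜 := ℝ) (p := w)).const_mul c.k).neg.exp).congr_fderiv (by
      ext <;> simp <;> ring)

theorem Ok.lab_cd (hp : 0 < rd p) : ContDiffAt ℝ ∞ c.lab p :=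
  (h.F_cd.1.contDiffAt.comp p (rd_cd hp.ne')).mul (by fun_prop)

theorem Ok.Psi_cd (hp : p ∈ c.D) : ContDiffAt ℝ ∞ c.Psi p :=
  have r0 := h.pos hp
  pol_cd (h.tau_cd hp) ((h.lab_cd r0).exp.div (rd_cd r0.ne') r0.ne')
    (h.J_cd.1.contDiffAt.comp p (rd_cd r0.ne')).neg

theorem Ok.Psi_fd (hp : p ∈ c.D) (v : R4) : fderiv ℝ c.Psi p v =
    pol (fderiv ℝ c.tau p v) 1 (-c.J (rd p)) ((Real.exp (c.lab p) / rd p) •
      ((-(c.k * c.lab p) * v.1 + (deriv c.F (rd p) * Real.exp (-(c.k * p.1)) - (rd p)⁻¹) *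
        dr p v) • p + v + (-deriv c.J (rd p) * dr p v) • Om 2 p)) := by
  have r0 := (h.pos hp).ne'
  have d1 : H2 (fun w => Real.exp (c.F w.2 * Real.exp (-(c.k * w.1))) * w.2⁻¹) (p.1, rd p)
      (Real.exp (c.lab p) / rd p * -(c.k * c.lab p)) (Real.exp (c.lab p) / rd p *
        (deriv c.F (rd p) * Real.exp (-(c.k * p.1)) - (rd p)⁻¹)) :=
    (HasFDerivAt.mul (HasFDerivAt.exp (h.lab_d (p.1, rd p))) (H2.rad (w := (p.1, rd p))
      (hasDerivAt_inv r0))).congr_fderiv (by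
        ext <;> simp [lab] <;> field_simp
        ring)
  have d2 := (H2.rad (w := (p.1, rd p))
    (h.J_cd.1.differentiable (by simp) (rd p)).hasDerivAt.neg).fd r0
  refine (pol_fd ((h.tau_cd hp).differentiableAt (by simp)) (d1.fd r0).1 d2.1 v).trans ?_
  rw [(d1.fd r0).2, d2.2]
  refine congrArg (pol _ _ _) ?_
  simp only [smul_add, smul_smul, lab, div_eq_mul_inv]
  module

theorem Ok.str (hp : p ∈ c.D) : fderiv ℝ c.Psi p (c.X p) = c.lam p • eT := by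
  have r0 := (h.pos hp).ne'
  have e1 : -(c.k * c.lab p) * c.aa (rd p) + (deriv c.F (rd p) * Real.exp (-(c.k * p.1)) -
      (rd p)⁻¹) * c.rr (rd p) = -(c.rr (rd p) / rd p) := by
    rw [lab]
    linear_combination Real.exp (-(c.k * p.1)) * (h.F_cd.2 (rd p)).2
  rw [h.Psi_fd hp, X_fst, X_dr c r0, e1, neg_mul, mul_comm (deriv _ _), h.J_cd.2, ← lam, X_eq]
  simp [pol, Om, eT]

theorem Ok.det (hp : p ∈ c.D) : 0 < LinearMap.det (fderiv ℝ c.Psi p : R4 →ₗ[ℝ] R4) := by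
  have r0 := h.pos hp
  have m0 : 0 < Real.exp (c.lab p) / rd p := div_pos (Real.exp_pos _) r0
  rw [det_pol (p := p) (A := c.tA (p.1, rd p)) (B := c.tR (p.1, rd p) / rd p)
    (E := Real.exp (c.lab p) / rd p * -(c.k * c.lab p))
    (D := Real.exp (c.lab p) / rd p *
      (deriv c.F (rd p) * Real.exp (-(c.k * p.1)) - (rd p)⁻¹) / rd p)
    (K := Real.exp (c.lab p) / rd p * -deriv c.J (rd p) / rd p)
    (m := Real.exp (c.lab p) / rd p) (c := -c.J (rd p)) fun v => by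
      refine (h.Psi_fd hp v).trans ?_
      rw [h.tau_fd hp, dr_eq]
      simp only [smul_add, smul_smul]
      refine congrArg₂ (fun t v => pol t 1 _ v) (by ring) ?_
      module, ← rd_sq]
  refine mul_pos (pow_pos m0 2) ((mul_pos_iff_of_pos_left (h.aa_pos (rd p))).1 ?_)
  obtain ⟨c0, h0, k⟩ := h.lam2
  have k1 := mul_pos (mul_pos (mul_pos m0 r0) (mul_pos (h.F_cd.2 (rd p)).1
    (Real.exp_pos (-(c.k * p.1))))) (h0.trans_le (k (p.1, rd p) hp))
  refine k1.trans_eq ?_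
  have e := (h.F_cd.2 (rd p)).2
  generalize Real.exp (c.lab p) / rd p = m
  rw [lab]
  field_simp
  linear_combination m * c.tR (p.1, rd p) * rd p * Real.exp (-(c.k * p.1)) * e

theorem Ok.rd_Psi (hp : p ∈ c.D) : rd (c.Psi p) = Real.exp (c.lab p) := by
  have r0 := h.pos hp
  rw [Psi, rd_pol _ _ _ (div_pos (Real.exp_pos _) r0).le, div_mul_cancel₀ _ r0.ne']

theorem Ok.P2_eq (hp : p ∈ c.D) :
    P2 c.k c.F c.T (p.1, rd p) = ((c.Psi p).1, Real.log (rd (c.Psi p))) := by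
  rw [h.rd_Psi hp, Real.log_exp, P2, show (c.Psi p).1 = c.tau p from rfl, tau_eq]
  rfl

theorem Ok.back (hp : p ∈ c.D) :
    pol p.1 (rd p / rd (c.Psi p)) (c.J (rd p)) (c.Psi p) = p := by
  have r0 := (h.pos hp).ne'
  rw [h.rd_Psi hp, Psi, pol_pol, add_neg_cancel, div_mul_div_cancel₀ (Real.exp_pos _).ne',
    div_self r0, pol_id]

theorem Ok.inj : InjOn c.Psi c.D := fun p hp q hq e => by
  obtain ⟨e1, e2⟩ := Prod.mk.inj (h.pl.inj (x₁ := (p.1, rd p)) hp (x₂ := (q.1, rd q)) hq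
    (by rw [h.P2_eq hp, h.P2_eq hq, e]))
  rw [← h.back hp, e, e1, e2, h.back hq]

/-! ### Compactness -/

theorem Ok.tau_ge : ∃ C, ∀ p ∈ c.D, p.1 ≤ c.tau p + C ∧
    (rd p ≤ c.R1 → p.1 + c.nu (rd p) ≤ c.tau p + C) := by
  obtain ⟨C, hC⟩ := (isCompact_Icc (a := c.r1) (b := c.R1 + 1)).bddAbove_image
    h.sm.continuous.continuousOn
  have hC' : ∀ r ∈ Icc c.r1 (c.R1 + 1), c.H r ≤ C := fun r k => hC (mem_image_of_mem _ k)
  have lt : c.r1 < c.R1 + 1 := by linarith [h.lt]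
  have d := fun x (k : x ∈ Ici (c.R1 + 1)) => (h.nu_d (lt.trans_le k)).sub (h.H_d x)
  have mo := monotoneOn_of_deriv_nonneg (convex_Ici _)
    (fun x k => (d x k).continuousAt.continuousWithinAt)
    (fun x k => (d x (interior_subset k)).differentiableAt.differentiableWithinAt)
    (fun x k => by
      have k : c.R1 + 1 ≤ x := interior_subset k
      rw [(d x k).deriv, n1_zero (by linarith [h.rpR]), n2,
        smoothTransition.one_of_one_le (by linarith), zero_div]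
      linarith [qm_le h.sub (show 10 * c.M ≤ x by linarith [h.R1])])
  refine ⟨C, fun p hp => ?_⟩
  have g := mul_nonneg (G_nonneg (c := c) (rd p)) (h.W_mem (ur c.M c.a p)).1
  have n := h.nu_nonneg hp
  rw [tau, tq]
  rcases le_total (rd p) (c.R1 + 1) with k | k
  · have := hC' _ ⟨le_of_lt hp, k⟩
    exact ⟨by linarith, fun _ => by linarith⟩
  · have := mo self_mem_Ici k k
    simp only [Pi.sub_apply] at this
    exact ⟨by linarith [hC' _ ⟨lt.le, le_rfl⟩, h.nu_nonneg lt], fun _ => by linarith⟩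

theorem Ok.cpt {θ : ℝ} (h0 : 0 < θ) (V : ℝ) :
    IsCompact {p ∈ En c.M c.a c.r1 θ | c.tau p ≤ V} := by
  obtain ⟨C, hC⟩ := h.tau_ge
  have k0 := (hor h.sub).2.2.2.2.1
  obtain ⟨r0, k1, k2⟩ := (mem_nhdsGT_iff_exists_Ioo_subset).1
    ((h.nu_top.eventually_gt_atTop (V + C - Real.log θ / ka c.M c.a)).and
      (nhdsWithin_le_nhds (Iio_mem_nhds h.lt)))
  have e : {p ∈ En c.M c.a c.r1 θ | c.tau p ≤ V} = Er c.M c.a c.r1 r0 θ ∩ c.tau ⁻¹' Iic V := by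
    refine Subset.antisymm (fun p hp => ⟨⟨hp.1, not_lt.1 fun k => ?_⟩, hp.2⟩)
      fun p hp => ⟨hp.1.1, hp.2⟩
    obtain ⟨k3, k4⟩ := k2 ⟨hp.1.1, k⟩
    have k5 : Real.log θ / ka c.M c.a ≤ p.1 := by
      rw [div_le_iff₀' k0, Real.log_le_iff_le_exp h0]
      exact hp.1.2.1
    linarith [(hC p hp.1.1).2 (le_of_lt k4), hp.2]
  refine P354XA.Er_compact h.sub h.r1.1.le h0 (c := V + C) ?_ fun p hp =>
    ⟨hp.1, by linarith [(hC p hp.1.1).1, hp.2]⟩
  rw [e]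
  exact ContinuousOn.preimage_isClosed_of_isClosed
    (fun p hp => (h.tau_cd hp.1.1).continuousAt.continuousWithinAt)
    (P354XA.Er_closed h.sub h.r1.1.le k1) isClosed_Iic

theorem Ok.be_le (hp : p ∈ c.D) (k : -2 ≤ c.psi p) : c.be (rd p) ≤ p.1 := by
  have := (h.psi_lt (h.pos hp) (-2)).not.1 (not_lt.2 k)
  linarith [not_lt.1 this]

theorem Ok.mem_En (hp : p ∈ c.D) (k : -2 ≤ c.psi p) :
    p ∈ En c.M c.a c.r1 (Real.exp (ka c.M c.a * c.be 0)) :=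
  (h.En_iff _ p).2 ⟨hp, Real.exp_le_exp.2 (mul_le_mul_of_nonneg_left
    ((h.be_mono (rd_nonneg p)).trans (h.be_le hp k)) (hor h.sub).2.2.2.2.1.le),
    fun k' => (h.be_ge k').trans (h.be_le hp k)⟩

theorem Ok.cpt_psi {b : ℝ} (hb : -2 ≤ b) (V : ℝ) :
    IsCompact {p | p ∈ c.D ∧ c.tau p ≤ V ∧ b ≤ c.psi p} := by
  have k := h.cpt (Real.exp_pos (ka c.M c.a * c.be 0)) V
  have k2 := ContinuousOn.preimage_isClosed_of_isClosed (f := c.psi)
    (fun p hp => (h.psi_cd (h.pos hp.1.1)).continuousAt.continuousWithinAt) k.isClosed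
    (isClosed_Ici (a := b))
  refine (congrArg IsCompact ?_).mp (k.of_isClosed_subset k2 inter_subset_left)
  ext p
  exact ⟨fun hp => ⟨hp.1.1.1, hp.1.2, hp.2⟩,
    fun hp => ⟨⟨h.mem_En hp.1 (hb.trans hp.2.2), hp.2.1⟩, hp.2.2⟩⟩

theorem Ok.open_O : IsOpen c.O :=
  ContinuousOn.isOpen_inter_preimage (f := c.psi) (s := c.D)
    (fun _ hp => (h.psi_cd (h.pos hp)).continuousAt.continuousWithinAt) c.open_D isOpen_Ioi

/-- The axioms of the scaffold. -/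
theorem Ok.is : c.sc.Is where
  opn := h.open_O
  smY _ hp := (h.X_cd (h.pos hp.1)).contDiffWithinAt
  smt _ hp := (h.tau_cd hp.1).contDiffWithinAt
  smp _ hp := (h.psi_cd (h.pos hp.1)).contDiffWithinAt
  Yt p hp := let ⟨_, h0, k⟩ := h.lam_pos; h0.trans_le (k p hp.1)
  smP _ hp := (h.Psi_cd hp.1).contDiffWithinAt
  inj := h.inj.mono fun _ hp => hp.1
  det _ hp := h.det hp.1
  fst _ _ := rfl
  str _ hp := h.str hp.1
  Yp _ hp k1 k2 := h.X_psi (h.pos hp.1) ⟨hp.2.le, k2.trans zero_le_one⟩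
  cpt V := by
    refine (congrArg IsCompact ?_).mp (h.cpt_psi (b := -1) (by norm_num) V)
    ext p
    exact ⟨fun k => ⟨⟨k.1, lt_of_lt_of_le (by norm_num) k.2.2⟩, k.2⟩, fun k => ⟨k.1.1, k.2⟩⟩

end Pm

end Vale.Agent.P354YT
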