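import Vale.Agent.P354YT.Tau

/-!
The levels of tau and psi are uniformly spacelike for Kerr.
-/

open scoped ContDiff
open Set Filter Topology

noncomputable section

namespace Vale.Agent.P354YT

open Vale.Agent.P354n (R4)
open Vale.Agent.P354I (rm rp rnd Sg)
open Vale.Agent.P354R (Del)
open Vale.Agent.P354XE
open Vale.Agent.P354XA
open Real (smoothTransition)

variable {p v : R4}

/-- The form y dv - dr is timelike if mm is positive. -/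
def mm (M a r y : ℝ) : ℝ := -Del M a r + 2 * y * (r ^ 2 + a ^ 2) - a ^ 2 * y ^ 2

theorem mm_cvx {M a r y y1 y2 μ : ℝ} (h1 : μ ≤ mm M a r y1) (h2 : μ ≤ mm M a r y2) (k1 : y1 ≤ y)
    (k2 : y ≤ y2) : μ ≤ mm M a r y := by
  unfold mm at *
  rcases le_total (a ^ 2 * (y + y1)) (2 * (r ^ 2 + a ^ 2)) with k | k
  · nlinarith [mul_nonneg (sub_nonneg.2 k1) (sub_nonneg.2 k)]
  · nlinarith [mul_nonneg (sub_nonneg.2 k2) (sub_nonneg.2 k), mul_nonneg (sub_nonneg.2 k2)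
      (mul_nonneg (sq_nonneg a) (sub_nonneg.2 (k1.trans k2)))]

theorem mm_inv {M a r A B : ℝ} (hB : B ≠ 0) : mm M a r (A / B) =
    -(a ^ 2 * A ^ 2 - 2 * (r ^ 2 + a ^ 2) * A * B + Del M a r * B ^ 2) / B ^ 2 := by
  unfold mm; field_simp; ring

theorem ge_alg {μ ρ N l M a r y z S n q k t d : ℝ} (μ0 : 0 < μ) (ρ0 : 0 ≤ ρ) (l0 : 0 < l)
    (l1 : l < 1) (hl : (1 - l) * (ρ * (1 + N) ^ 2) ≤ l * μ / 2) (h0 : 0 < r)
    (ha : a ^ 2 ≤ ρ * r ^ 2) (hy : |y| ≤ N) (hm : μ * r ^ 2 ≤ mm M a r y) (z0 : 0 ≤ z)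
    (z1 : z ≤ 1) (s3 : S = r ^ 2 + a ^ 2 * z) (k2 : 0 ≤ n) (k4 : q ^ 2 ≤ (1 - z) * n)
    (e1 : t = (1 - y) * (k + a * q)) (e2 : d = y * (k + a * q)) :
    t ^ 2 + (d ^ 2 + r ^ 2 * n) ≤
      (1 + (1 + N) ^ 2 + N ^ 2) * (4 * (1 + ρ) / μ + (2 * ρ + 1) / (1 - l)) *
        (-(t * t) + d * d - a * (d * q + q * d) + S * n + a ^ 2 * (q * q) +
          2 * M * r / S * ((t + d - a * q) * (t + d - a * q))) := by
  have l2 : 0 < 1 - l := sub_pos.2 l1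
  have r2 : 0 < r ^ 2 := by positivity
  have s1 : r ^ 2 ≤ S := s3 ▸ le_add_of_nonneg_right (by positivity)
  have s2 : S ≤ r ^ 2 + a ^ 2 := by linarith only [s3, mul_le_of_le_one_right (sq_nonneg a) z1]
  have k3 : q ^ 2 ≤ n := by linarith only [k4, mul_nonneg z0 k2]
  have S0 : 0 < S := r2.trans_le s1
  obtain ⟨y0, y1⟩ := abs_le.1 hy
  have y2 : (1 - y) ^ 2 ≤ (1 + N) ^ 2 :=
    sq_le_sq' (by linarith only [y1]) (by linarith only [y0])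
  have y3 : y ^ 2 ≤ N ^ 2 := sq_le_sq' y0 y1
  have a1 : (a * (1 - y)) ^ 2 ≤ ρ * (1 + N) ^ 2 * r ^ 2 := by
    rw [mul_pow, mul_right_comm]
    exact mul_le_mul ha y2 (sq_nonneg _) (by positivity)
  have b1 := r_alg (a := a * (1 - y)) (D := μ * r ^ 2) (S := S) (k := k) l0 l1 (by
    linarith only [mul_le_mul_of_nonneg_left a1 l2.le, mul_le_mul_of_nonneg_right hl r2.le])
    z0 z1 k2 k4
  generalize hQ : -(t * t) + d * d - a * (d * q + q * d) + S * n + a ^ 2 * (q * q) +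
    2 * M * r / S * ((t + d - a * q) * (t + d - a * q)) = Q
  have b2 : Q * S = (mm M a r y + a ^ 2 * y ^ 2 * z + (a * (1 - y)) ^ 2 * (1 - z)) * k ^ 2 -
      2 * (a * (1 - y)) * k * q * S + S ^ 2 * n := by
    rw [← hQ, e1, e2, mm, Del]
    field_simp
    rw [s3]
    ring
  have b3 := r_alg2 (a := a) (k := k) (Q := Q) (mul_pos μ0 r2) l2 h0 k2 k3 s1 s2 (by
    linarith only [mul_le_mul_of_nonneg_right hm (sq_nonneg k), b1, b2,
      show 0 ≤ a ^ 2 * y ^ 2 * z * k ^ 2 by positivity])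
  have b4 : 4 * (r ^ 2 + a ^ 2) / (μ * r ^ 2) + (2 * a ^ 2 + r ^ 2) / ((1 - l) * r ^ 2) ≤
      4 * (1 + ρ) / μ + (2 * ρ + 1) / (1 - l) := by
    rw [← mul_div_mul_right (4 * (1 + ρ)) μ r2.ne', ← mul_div_mul_right (2 * ρ + 1) (1 - l) r2.ne']
    exact add_le_add (div_le_div_of_nonneg_right (by linarith only [ha]) (by positivity))
      (div_le_div_of_nonneg_right (by linarith only [ha]) (by positivity))
  have w0 : 0 ≤ (k + a * q) ^ 2 := sq_nonneg _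
  have w1 : 0 ≤ r ^ 2 * n := by positivity
  have Q0 : 0 ≤ Q := nonneg_of_mul_nonneg_right ((add_nonneg w0 w1).trans b3) (by positivity)
  rw [mul_assoc]
  refine le_trans ?_ (mul_le_mul_of_nonneg_left (b3.trans (mul_le_mul_of_nonneg_right b4 Q0))
    (by positivity))
  rw [e1, e2]
  linarith only [mul_le_mul_of_nonneg_right y2 w0, mul_le_mul_of_nonneg_right y3 w0, w0,
    mul_nonneg (add_nonneg (sq_nonneg (1 + N)) (sq_nonneg N)) w1]

theorem gin_ge {μ ρ : ℝ} (N : ℝ) (μ0 : 0 < μ) (ρ0 : 0 ≤ ρ) : ∃ c > 0, ∀ M a p v y, 0 < rd p →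
    a ^ 2 ≤ ρ * rd p ^ 2 → |y| ≤ N → μ * rd p ^ 2 ≤ mm M a (rd p) y →
    dr p v = y * (v.1 + dr p v) → c * ‖v‖ ^ 2 ≤ gin M a p v v := by
  obtain ⟨l, l0, l1, hl⟩ : ∃ l : ℝ, 0 < l ∧ l < 1 ∧ (1 - l) * (ρ * (1 + N) ^ 2) ≤ l * μ / 2 := by
    have K0 : 0 ≤ ρ * (1 + N) ^ 2 := by positivity
    generalize ρ * (1 + N) ^ 2 = K at *
    refine ⟨(2 * K + μ) / (2 * K + 2 * μ), by positivity, by
      rw [div_lt_one (by positivity)]; linarith, ?_⟩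
    rw [one_sub_div (by positivity), div_mul_eq_mul_div, div_mul_eq_mul_div, div_div,
      div_le_div_iff₀ (by positivity) (by positivity)]
    nlinarith [mul_pos (mul_pos μ0 μ0) (show 0 < K + μ by positivity)]
  have l2 : 0 < 1 - l := sub_pos.2 l1
  refine ⟨((1 + (1 + N) ^ 2 + N ^ 2) * (4 * (1 + ρ) / μ + (2 * ρ + 1) / (1 - l)))⁻¹, by positivity,
    fun M a p v y h0 ha hy hm hv => ?_⟩
  have k1 := norm_sq_le v
  rw [ip_split h0.ne'] at k1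
  rw [inv_mul_le_iff₀ (by positivity)]
  exact k1.trans (ge_alg (k := kf a p v) μ0 ρ0 l0 l1 hl h0 ha hy hm (by positivity)
    (div_le_one_of_le₀ (by
      rw [rd_sq, ip]; nlinarith [mul_self_nonneg p.2.1, mul_self_nonneg p.2.2.1]) (sq_nonneg _))
    (Sg_eq a p) (rnd_nonneg h0.ne' v).1 (dq_sq h0.ne' v) (by rw [kf]; linarith only [hv])
    (by rw [kf]; linarith only [hv]))

theorem far_mm {M a r A b Q B0 D : ℝ} (r0 : 0 < r) (D0 : 0 < D) (hD : D = Del M a r)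
    (e : D * Q = r ^ 2 + a ^ 2) (Q1 : 1 ≤ Q) (Q2 : Q ≤ 5 / 4) (A1 : 1 ≤ A) (A2 : A ≤ B0)
    (A3 : a ^ 2 * A ≤ 7 / 200 * r ^ 2) (b1 : 3 / 2 ≤ b) (b2 : b ≤ 39 / 20) :
    0 < 2 * Q * A - b ∧ A / (2 * Q * A - b) ≤ 20 ∧
      1 / (160 * B0) * r ^ 2 ≤ mm M a r (A / (2 * Q * A - b)) := by
  have B1 : A / 20 ≤ 2 * Q * A - b := by nlinarith
  have B2 : 0 < 2 * Q * A - b := by linarith
  refine ⟨B2, by rw [div_le_iff₀ B2]; linarith, ?_⟩
  have A0 : 0 < A := by linarith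
  have r2 : 0 < r ^ 2 := by positivity
  have c1 : D * b ≤ 39 / 20 * (D * Q * A) := by
    have : 1 ≤ Q * A := by nlinarith
    nlinarith [mul_le_mul_of_nonneg_left this D0.le]
  have c2 : r ^ 2 * A / 25 ≤ -(a ^ 2 * A ^ 2 - 2 * (r ^ 2 + a ^ 2) * A * (2 * Q * A - b) +
      D * (2 * Q * A - b) ^ 2) := by
    have c3 : 0 < D * Q * A := by positivity
    have c4 : r ^ 2 * A ≤ D * Q * A := by rw [e]; nlinarith [sq_nonneg a]
    rw [← e]
    nlinarith [mul_le_mul_of_nonneg_right A3 A0.le, mul_le_mul_of_nonneg_left c1 (by linarith : 0 ≤ b),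
      mul_le_mul_of_nonneg_right b1 c3.le]
  have c5 : (2 * Q * A - b) ^ 2 ≤ 25 / 4 * A * B0 := by
    have : 2 * Q * A - b ≤ 5 / 2 * A := by nlinarith
    nlinarith [mul_le_mul_of_nonneg_left A2 A0.le]
  rw [mm_inv B2.ne', ← hD, le_div_iff₀ (by positivity), div_mul_eq_mul_div, div_mul_eq_mul_div,
    div_le_iff₀ (by nlinarith)]
  nlinarith [mul_le_mul_of_nonneg_left c5 r2.le, mul_le_mul_of_nonneg_right c2
    (by linarith : 0 ≤ B0), mul_pos (mul_pos r2 A0) (by linarith : 0 < B0)]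

namespace Pm

variable {c : Pm} (h : c.Ok) {r : ℝ}
include h

theorem Ok.a_le (hr : 10 * c.M ≤ r) : c.a ^ 2 ≤ r ^ 2 / 100 := by
  have := sq_lt_sq' (abs_lt.1 h.sub).1 (abs_lt.1 h.sub).2
  nlinarith [h.M0]

theorem Ok.h2 (hr : c.r1 ≤ r) : 0 < 1 + deriv c.H r - c.n2 r ∧
    c.a ^ 2 - 2 * (r ^ 2 + c.a ^ 2) * (1 + deriv c.H r - c.n2 r) +
      Del c.M c.a r * (1 + deriv c.H r - c.n2 r) ^ 2 < 0 := by
  obtain ⟨t1, t2⟩ := h.tm r hr
  rcases le_total r c.R1 with k | k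
  · rw [n2_zero k, sub_zero]; exact ⟨t1, t2⟩
  have k1 : 10 * c.M ≤ r := by linarith [h.R1]
  have D0 := Del_pos h.sub (rp_lt h.sub k1)
  have q0 := qm_pos h.sub (rp_lt h.sub k1)
  have e := qm_mul D0.ne'
  have a1 := h.a_le k1
  obtain ⟨s0, s1⟩ := st_mem (r - c.R1)
  have D2 : Del c.M c.a r ≤ r ^ 2 + c.a ^ 2 := by nlinarith
  have r0 : 0 < r := by linarith [h.M0]
  rw [n2]
  generalize smoothTransition (r - c.R1) = χ at *
  generalize Del c.M c.a r = D at *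
  generalize qm c.M c.a r = q at *
  obtain ⟨y, hy⟩ : ∃ y, deriv c.H r = y - 1 := ⟨deriv c.H r + 1, by ring⟩
  rw [hy] at t1 t2 ⊢
  have t3 : c.a ^ 2 - 2 * (r ^ 2 + c.a ^ 2) * (1 / 2 + 2 * q) + D * (1 / 2 + 2 * q) ^ 2 < 0 := by
    rw [← e]; nlinarith [sq_pos_of_pos r0]
  refine ⟨by nlinarith [mul_nonneg (sub_nonneg.2 s1) t1.le, mul_nonneg s0 q0.le], ?_⟩
  have t4 : 0 ≤ D * (χ * (1 - χ)) * (y - (1 / 2 + 2 * q)) ^ 2 := by
    have := sub_nonneg.2 s1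
    positivity
  rcases s0.eq_or_lt with rfl | s0'
  · simpa using t2
  · nlinarith [mul_nonneg (sub_nonneg.2 s1) (neg_nonneg.2 t2.le), mul_pos s0' (neg_pos.2 t3)]

theorem Ok.near_adm : ∃ μ > 0, ∃ N, ∀ r, c.r1 < r → r ≤ c.R1 + 1 →
    ∀ B, B = 1 + deriv c.H r - c.n2 r + c.n1 r / (r - c.r1) ^ 2 →
      0 < B ∧ 1 / B ≤ N ∧ μ * r ^ 2 ≤ mm c.M c.a r (1 / B) := by
  obtain ⟨den, hd⟩ : ∃ den : ℝ → ℝ, den = fun r =>
    (r - c.r1) ^ 2 * (1 + deriv c.H r - c.n2 r) + c.n1 r := ⟨_, rfl⟩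
  have c1 : Continuous den := by
    have := st_dc
    have := smoothTransition.continuous
    have : Continuous c.n2 := h.ni_cd.continuous
    have := h.sm.continuous_deriv (by simp)
    rw [hd]; unfold n1; fun_prop
  have key : ∀ r, c.r1 < r → ∀ B, B = 1 + deriv c.H r - c.n2 r + c.n1 r / (r - c.r1) ^ 2 →
      0 < B ∧ den r = (r - c.r1) ^ 2 * B ∧ 0 < mm c.M c.a r (1 / B) := fun r k B e => by
    obtain ⟨t1, t2⟩ := h.h2 k.le
    have r0 := (sub_pos.2 k).ne'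
    have n0 : 0 ≤ c.n1 r / (r - c.r1) ^ 2 := div_nonneg (n1_nonneg k.le) (sq_nonneg _)
    have B0 : 0 < B := by linarith
    refine ⟨B0, by rw [hd, e]; field_simp, ?_⟩
    rw [mm_inv B0.ne']
    refine div_pos (neg_pos.2 ?_) (by positivity)
    rcases le_total (rp c.M c.a) r with k1 | k1
    · rw [e, n1_zero k1]; simpa using t2
    have D : Del c.M c.a r ≤ 0 := by
      rw [(hor h.sub).2.2.2.2.2.1]
      exact mul_nonpos_of_nonpos_of_nonneg (sub_nonpos.2 k1) (by linarith [h.r1.1])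
    rw [e]
    generalize c.n1 r / (r - c.r1) ^ 2 = n at *
    generalize 1 + deriv c.H r - c.n2 r = y at *
    nlinarith [mul_nonneg (add_nonneg (sq_nonneg r) (sq_nonneg c.a)) n0,
      mul_nonneg (neg_nonneg.2 D) (add_nonneg (mul_nonneg t1.le n0) (mul_nonneg B0.le n0))]
  have d0 : ∀ r ∈ Icc c.r1 (c.R1 + 1), 0 < den r := fun r k => by
    rcases k.1.eq_or_lt with rfl | k1
    · simpa [hd, n1] using smoothTransition.pos_of_pos (sub_pos.2 h.r1.2)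
    · obtain ⟨b0, e, -⟩ := key r k1 _ rfl
      exact e ▸ mul_pos (pow_pos (sub_pos.2 k1) 2) b0
  have c2 : ContinuousOn (fun r => (r - c.r1) ^ 2 / den r) (Icc c.r1 (c.R1 + 1)) :=
    ContinuousOn.div (by fun_prop) c1.continuousOn fun r k => (d0 r k).ne'
  have e2 : ∀ r, c.r1 < r → ∀ B, B = 1 + deriv c.H r - c.n2 r + c.n1 r / (r - c.r1) ^ 2 →
      (r - c.r1) ^ 2 / den r = 1 / B := fun r k B e => by
    rw [(key r k B e).2.1, div_mul_cancel_left₀ (pow_pos (sub_pos.2 k) 2).ne', one_div]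
  obtain ⟨N, hN⟩ := isCompact_Icc.bddAbove_image c2
  obtain ⟨μ, μ0, hμ⟩ := (isCompact_Icc (a := c.r1) (b := c.R1 + 1)).exists_forall_le' (a := 0)
    (f := fun r => mm c.M c.a r ((r - c.r1) ^ 2 / den r) / r ^ 2)
    (ContinuousOn.div (by unfold mm Del; fun_prop) (by fun_prop)
      fun r k => (pow_pos (h.r10.trans_le k.1) 2).ne') fun r k => by
      refine div_pos ?_ (pow_pos (h.r10.trans_le k.1) 2)
      rcases k.1.eq_or_lt with rfl | k1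
      · simpa [mm, (hor h.sub).2.2.2.2.2.1] using
          mul_neg_of_neg_of_pos (sub_neg.2 h.r1.2) (sub_pos.2 h.r1.1)
      · exact e2 r k1 _ rfl ▸ (key r k1 _ rfl).2.2
  refine ⟨μ, μ0, N, fun r k1 k2 B e => ⟨(key r k1 B e).1, ?_, ?_⟩⟩ <;> rw [← e2 r k1 B e]
  · exact hN (mem_image_of_mem _ ⟨k1.le, k2⟩)
  · exact (le_div_iff₀ (pow_pos (h.r10.trans k1) 2)).1 (hμ r ⟨k1.le, k2⟩)

theorem Ok.G_le' (hr : 0 ≤ r) : c.G r ≤ r := by
  rcases le_total r c.Rs with k | k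
  · rwa [G_zero k]
  · linarith [G_le k, h.rpS, h.r1.2, h.r10]

/-- The form d tau + e dr is a positive multiple of y dv - dr with an admissible y. -/
theorem Ok.adm (B0 : ℝ) : ∃ μ > 0, ∃ N, ∀ w : ℝ × ℝ, c.r1 < w.2 → c.tA w ≤ B0 →
    ∀ e ∈ Icc (0 : ℝ) (1 / 5), (w.2 < c.R1 + 1 → e = 0) → 0 < c.tA w - c.tR w - e ∧
      c.tA w / (c.tA w - c.tR w - e) ≤ N ∧
      μ * w.2 ^ 2 ≤ mm c.M c.a w.2 (c.tA w / (c.tA w - c.tR w - e)) := by
  obtain ⟨μ, μ0, N, k⟩ := h.near_adm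
  refine ⟨min μ (1 / (160 * max B0 1)), lt_min μ0 (by positivity), max N 20,
    fun w hw hB e he h0 => ?_⟩
  rcases lt_or_ge w.2 (c.R1 + 1) with k1 | k1
  · obtain ⟨e1, e2⟩ := near_eq (k1.le.trans h.Rs)
    obtain ⟨a1, a2, a3⟩ := k w.2 hw k1.le (c.tA w - c.tR w - e) (by rw [e1, e2, h0 k1]; ring)
    rw [← e1] at a2 a3
    exact ⟨a1, a2.trans (le_max_left _ _),
      (mul_le_mul_of_nonneg_right (min_le_left _ _) (sq_nonneg _)).trans a3⟩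
  · obtain ⟨b, hb, -, e1⟩ := h.far_eq k1
    have k2 : 10 * c.M ≤ w.2 := by linarith [h.R1]
    have r0 := h.r10.trans hw
    have D := Del_pos h.sub (rp_lt h.sub k2)
    have q0 := qm_pos h.sub (rp_lt h.sub k2)
    have w1 := h.W_M (w.1 - P354XA.psi c.M c.a w.2)
    have w2 := mul_le_mul_of_nonneg_right (h.G_le' r0.le)
      (h.W_pos (w.1 - P354XA.psi c.M c.a w.2)).le
    have a2 := (sq_lt_sq' (abs_lt.1 h.sub).1 (abs_lt.1 h.sub).2).le
    obtain ⟨a1, a2, a3⟩ := far_mm (b := b + e) r0 D rfl (qm_mul D.ne') (by linarith)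
      (by linarith [qm_le h.sub k2]) (h.tA_ge w) (hB.trans (le_max_left B0 1)) (by
        have w3 := mul_nonneg (G_nonneg (c := c) w.2) (h.W_pos (w.1 - P354XA.psi c.M c.a w.2)).le
        rw [tA]
        nlinarith [h.a_le k2, mul_le_mul a2 w2 w3 (sq_nonneg _),
          mul_le_mul_of_nonneg_left w1 (mul_pos h.M0 r0).le, mul_le_mul_of_nonneg_right k2 r0.le])
      (by linarith [hb.1, he.1]) (by linarith [hb.2, he.2])
    rw [show c.tA w - c.tR w - e = 2 * (1 + qm c.M c.a w.2) * c.tA w - (b + e) by rw [e1]; ring]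
    exact ⟨a1, a2.trans (le_max_right _ _),
      (mul_le_mul_of_nonneg_right (min_le_right _ _) (sq_nonneg _)).trans a3⟩

theorem Ok.rho (hp : p ∈ c.D) : c.a ^ 2 ≤ c.a ^ 2 / c.r1 ^ 2 * rd p ^ 2 := by
  have := h.r10
  rw [div_mul_eq_mul_div, le_div_iff₀ (by positivity)]
  gcongr
  exact le_of_lt hp

theorem Ok.margin (B : ℝ) : ∃ c0 > 0, ∀ p ∈ c.D, c.G (rd p) * deriv c.W (ur c.M c.a p) ≤ B →
    ∀ e ∈ Icc (0 : ℝ) (1 / 5), (rd p < c.R1 + 1 → e = 0) → ∀ v,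
      fderiv ℝ c.tau p v + e * dr p v = 0 → c0 * ‖v‖ ^ 2 ≤ gin c.M c.a p v v := by
  obtain ⟨μ, μ0, N, k⟩ := h.adm (1 + B)
  obtain ⟨c0, h0, k2⟩ := gin_ge N μ0 (show 0 ≤ c.a ^ 2 / c.r1 ^ 2 by positivity)
  refine ⟨c0, h0, fun p hp hB e he he0 v hv => ?_⟩
  obtain ⟨a1, a2, a3⟩ := k (p.1, rd p) hp (by rw [ur_eq] at hB; exact add_le_add le_rfl hB) e he he0
  refine k2 _ _ p v _ (h.pos hp) (h.rho hp) ((abs_of_pos (div_pos
    (one_pos.trans_le (h.tA_ge _)) a1)).trans_le a2) a3 ?_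
  rw [h.tau_fd hp] at hv
  rw [div_mul_eq_mul_div, eq_div_iff a1.ne']
  linarith

end Pm

end Vale.Agent.P354YT
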